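import Crest.Agent.R317.Lib

/-!
Row 287: a generic library of polynomial-time list operations.
-/

set_option autoImplicit false

namespace Crest.Agent.R287

open Crest.Agent.PT Crest.Agent.QC Crest.Agent.R317

variable {α β γ : Type} [Enc α] [Enc β] [Enc γ]

instance inhBin : Inhabited Bin := ⟨⟨0⟩⟩

theorem mkL_getD {δ : Type} (l : List δ) (d : δ) : mkL l.length (fun i => l.getD i d) = l := by
  apply List.ext_getElem
  · simp
  · intro i h1 h2
    simp [mkL, List.getD_eq_getElem?_getD, h2]

theorem enc_append (l m : List β) : enc (l ++ m) = enc l ++ enc m := by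
  induction l with
  | nil => rfl
  | cons x l ih => simp [enc_cons, ih]

@[fun_prop] theorem pt_append {l m : α → List β} (hl : PT l) (hm : PT m) :
    PT (fun a => l a ++ m a) :=
  (PT.app (PT.toRaw.comp hl) (PT.toRaw.comp hm)).of_enc_eq (fun a => (enc_append _ _).symm)

@[simp] theorem sz_append (l m : List β) : sz (l ++ m) = sz l + sz m := by
  simp [sz, enc_append]

theorem sz_le_of_sublist {l m : List β} (h : l.Sublist m) : sz l ≤ sz m := by
  induction h with
  | slnil => exact le_rfl
  | cons a _ ih => simp only [sz_cons]; omega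
  | cons_cons a _ ih => simp only [sz_cons]; omega

theorem sz_perm {l m : List β} (h : l.Perm m) : sz l = sz m := by
  induction h with
  | nil => rfl
  | cons a _ ih => simp only [sz_cons, ih]
  | swap a b l => simp only [sz_cons]; omega
  | trans _ _ ih1 ih2 => exact ih1.trans ih2

theorem sz_le_of_mem {l : List β} {x : β} (h : x ∈ l) : sz x ≤ sz l := by
  induction l with
  | nil => simp at h
  | cons y l ih =>
    simp only [sz_cons]
    rcases List.mem_cons.1 h with rfl | h
    · omega
    · have := ih h; omega

theorem sz_getD_le (l : List β) (i : ℕ) (d : β) : sz (l.getD i d) ≤ sz l + sz d := by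
  rw [List.getD_eq_getElem?_getD]
  cases h : l[i]? with
  | none => simp
  | some x => have := sz_le_of_mem (List.mem_of_getElem? h); simp; omega

@[fun_prop] theorem pt_range {n : α → ℕ} (hn : PT n) : PT (fun a => List.range (n a)) :=
  (pt_mkL (f := fun _ i => i) hn (by fun_prop)).congr (fun a => by simp [mkL])

@[fun_prop] theorem pt_replicate {n : α → ℕ} {f : α → β} (hn : PT n) (hf : PT f) :
    PT (fun a => List.replicate (n a) (f a)) :=
  (pt_mkL (f := fun a _ => f a) hn (by fun_prop)).congr (fun a => by simp [mkL])

/-- Concatenation of the lists `f 0, …, f (n-1)`. -/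
def catL {δ : Type} (n : ℕ) (f : ℕ → List δ) : List δ := (List.range n).flatMap f

@[fun_prop] theorem pt_catL {n : α → ℕ} {f : α → ℕ → List β} (hn : PT n)
    (hf : PT (fun p : α × ℕ => f p.1 p.2)) : PT (fun a => catL (n a) (f a)) := by
  refine (PT.concat (f := fun a i => (⟨enc (f a i)⟩ : Raw)) hn (PT.toRaw.comp hf)).of_enc_eq
    (fun a => ?_)
  show (List.range (n a)).flatMap _ = enc ((List.range (n a)).flatMap (f a))
  induction List.range (n a) with
  | nil => rfl
  | cons x l ih => simp only [List.flatMap_cons, enc_append, ih]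

@[fun_prop] theorem pt_take {l : α → List β} {k : α → ℕ} (hl : PT l) (hk : PT k) :
    PT (fun a => (l a).take (k a)) := by
  have key : ∀ (i : ℕ) (x : List Bool), Raw.tail^[i] ⟨x⟩ = ⟨x.drop i⟩ := by
    intro i
    induction i with
    | zero => intro x; rfl
    | succ i ih => intro x; rw [Function.iterate_succ_apply]; cases x <;> simp [Raw.tail, ih]
  have h1 : PT (fun a => Raw.revApp ⟨enc (l a)⟩ Raw.nil) :=
    PT.revApp (PT.toRaw.comp hl) (PT.const _)
  have h2 := pt_iterShrink (s := Raw.tail) (PT.tail PT.id') (fun x => by simp)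
    (pt_drop hl hk).len h1
  refine (PT.revApp h2 (PT.const Raw.nil)).of_enc_eq (fun a => ?_)
  have e : enc (l a) = enc ((l a).take (k a)) ++ enc ((l a).drop (k a)) := by
    rw [← enc_append, List.take_append_drop]
  show (Raw.revApp (Raw.tail^[_] ⟨_⟩) Raw.nil).val = _
  rw [key]
  simp only [Raw.val_revApp, Raw.val_nil, List.append_nil]
  rw [e]
  simp [sz]

@[fun_prop] theorem pt_flatMap {l : α → List β} {f : α → β → List γ} [Inhabited β] (hl : PT l)
    (hf : PT (fun p : α × β => f p.1 p.2)) : PT (fun a => (l a).flatMap (f a)) := by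
  have h : PT (fun a => catL (l a).length (fun i => f a ((l a).getD i default))) :=
    pt_catL (f := fun a i => f a ((l a).getD i default)) (pt_length hl)
      (hf.comp (f := fun p : α × ℕ => (p.1, (l p.1).getD p.2 default)) (by fun_prop))
  refine h.congr (fun a => ?_)
  conv_rhs => rw [← mkL_getD (l a) default]
  simp [mkL, catL, List.flatMap_map]

@[fun_prop] theorem pt_map {l : α → List β} {f : α → β → γ} [Inhabited β] (hl : PT l)
    (hf : PT (fun p : α × β => f p.1 p.2)) : PT (fun a => (l a).map (f a)) :=
  (pt_flatMap (f := fun a x => [f a x]) hl (pt_cons hf (PT.const _))).congr (fun a => by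
    induction l a with
    | nil => rfl
    | cons x t ih => simp [ih])

@[fun_prop] theorem pt_flatten {l : α → List (List β)} (hl : PT l) :
    PT (fun a => (l a).flatten) :=
  (pt_flatMap (f := fun _ x => x) hl (by fun_prop)).congr (fun a => by simp [List.flatMap_id'])

/-- `filter` with a Boolean test -/
@[fun_prop] theorem pt_filter {l : α → List β} {p : α → β → Bool} [Inhabited β] (hl : PT l)
    (hp : PT (fun q : α × β => p q.1 q.2)) : PT (fun a => (l a).filter (p a)) :=
  (pt_flatMap (f := fun a x => bif p a x then [x] else []) hl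
    (PT.cond hp (by fun_prop) (PT.const _))).congr (fun a => by
    induction l a with
    | nil => rfl
    | cons x t ih => cases h : p a x <;> simp [h, ih])

@[fun_prop] theorem pt_reverse {l : α → List β} (hl : PT l) : PT (fun a => (l a).reverse) := by
  have h : PT (fun a => catL (l a).length
      (fun i => ((l a).drop ((l a).length - 1 - i)).take 1)) := by fun_prop
  refine h.congr (fun a => ?_)
  generalize l a = x
  induction x with
  | nil => rfl
  | cons y x ih =>
    rw [List.reverse_cons, ← ih]
    simp only [catL, List.length_cons, List.range_succ, List.flatMap_append, List.flatMap_cons,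
      List.flatMap_nil, List.append_nil]
    congr 1
    · refine List.flatMap_congr (fun i hi => ?_)
      have : i < x.length := List.mem_range.1 hi
      rw [show x.length + 1 - 1 - i = (x.length - 1 - i) + 1 by omega, List.drop_succ_cons]
    · simp

@[fun_prop] theorem pt_dropLast {l : α → List β} (hl : PT l) : PT (fun a => (l a).dropLast) :=
  (pt_take hl (PT.sub (pt_length hl) (PT.const 1))).congr (fun _ => List.dropLast_eq_take.symm)

@[fun_prop] theorem pt_getLastD {l : α → List β} {d : α → β} (hl : PT l) (hd : PT d) :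
    PT (fun a => (l a).getLastD (d a)) :=
  (pt_headD (pt_reverse hl) hd).congr (fun a => by simp [List.getLastD_eq_getLast?])

@[fun_prop] theorem pt_rotate {l : α → List β} {k : α → ℕ} (hl : PT l) (hk : PT k) :
    PT (fun a => (l a).rotate (k a)) := by
  have h : PT (fun a => (l a).drop (k a % (l a).length) ++ (l a).take (k a % (l a).length)) := by
    fun_prop
  exact h.congr (fun a => List.rotate_eq_drop_append_take_mod.symm)

@[fun_prop] theorem pt_eraseIdx {l : α → List β} {k : α → ℕ} (hl : PT l) (hk : PT k) :
    PT (fun a => (l a).eraseIdx (k a)) := by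
  have h : PT (fun a => (l a).take (k a) ++ (l a).drop (k a + 1)) := by fun_prop
  exact h.congr (fun a => (List.eraseIdx_eq_take_drop_succ _ _).symm)

@[fun_prop] theorem pt_set {l : α → List β} {k : α → ℕ} {x : α → β} (hl : PT l) (hk : PT k)
    (hx : PT x) : PT (fun a => (l a).set (k a) (x a)) := by
  have h : PT (fun a => if k a < (l a).length then (l a).take (k a) ++ x a :: (l a).drop (k a + 1)
      else l a) := by fun_prop
  exact h.congr (fun a => List.set_eq_take_append_cons_drop.symm)

@[fun_prop] theorem pt_zip {l : α → List β} {m : α → List γ} [Inhabited β] [Inhabited γ]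
    (hl : PT l) (hm : PT m) : PT (fun a => (l a).zip (m a)) := by
  have h : PT (fun a => mkL (min (l a).length (m a).length)
      (fun i => ((l a).getD i default, (m a).getD i default))) := by fun_prop
  refine h.congr (fun a => ?_)
  apply List.ext_getElem
  · simp
  · intro i h1 h2
    simp only [length_mkL, lt_min_iff] at h1
    simp [mkL, List.getD_eq_getElem?_getD, h1.1, h1.2]

theorem sum_getD {δ : Type} (l : List δ) (d : δ) (f : δ → ℕ) :
    ∑ i ∈ Finset.range l.length, f (l.getD i d) = (l.map f).sum := by
  induction l with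
  | nil => rfl
  | cons x l ih =>
    rw [List.length_cons, Finset.sum_range_succ', List.map_cons, List.sum_cons, ← ih, add_comm]
    rfl

/-- sum of a list of unary numbers -/
@[fun_prop] theorem pt_sum {l : α → List ℕ} (hl : PT l) : PT (fun a => (l a).sum) :=
  (PT.sumNat (f := fun a i => (l a).getD i 0) (pt_length hl) (by fun_prop)).congr
    (fun a => by rw [sum_getD (l a) 0 (fun x => x), List.map_id'])

/-- bounded quantifiers over lists -/
theorem dt_forall_mem {l : α → List β} {p : α → β → Prop} [Inhabited β] (hl : PT l)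
    (hp : DT (fun q : α × β => p q.1 q.2)) : DT (fun a => ∀ x ∈ l a, p a x) :=
  (DT.all (p := fun a i => p a ((l a).getD i default)) (pt_length hl)
    (hp.comp (f := fun q : α × ℕ => (q.1, (l q.1).getD q.2 default)) (by fun_prop))).congr
    (fun a => by
      constructor
      · intro h x hx
        obtain ⟨i, hi, rfl⟩ := List.getElem_of_mem hx
        have : p a _ := h i hi
        rwa [List.getD_eq_getElem _ _ hi] at this
      · intro h i hi
        show p a _
        rw [List.getD_eq_getElem _ _ hi]
        exact h _ (List.getElem_mem hi))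

theorem dt_exists_mem {l : α → List β} {p : α → β → Prop} [Inhabited β] (hl : PT l)
    (hp : DT (fun q : α × β => p q.1 q.2)) : DT (fun a => ∃ x ∈ l a, p a x) :=
  (dt_forall_mem (p := fun a x => ¬ p a x) hl hp.not).not.congr (fun a => by simp)

theorem dt_true {f : α → Bool} (hf : PT f) : DT (fun a => f a = true) := ⟨f, hf, fun _ => Iff.rfl⟩

@[fun_prop] theorem pt_all {l : α → List β} {p : α → β → Bool} [Inhabited β] (hl : PT l)
    (hp : PT (fun q : α × β => p q.1 q.2)) : PT (fun a => (l a).all (p a)) :=
  (pt_decide (dt_forall_mem (p := fun a x => p a x = true) hl (dt_true hp))).congr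
    (fun a => by rw [Bool.eq_iff_iff]; simp)

@[fun_prop] theorem pt_any {l : α → List β} {p : α → β → Bool} [Inhabited β] (hl : PT l)
    (hp : PT (fun q : α × β => p q.1 q.2)) : PT (fun a => (l a).any (p a)) :=
  (pt_decide (dt_exists_mem (p := fun a x => p a x = true) hl (dt_true hp))).congr
    (fun a => by rw [Bool.eq_iff_iff]; simp)

@[fun_prop] theorem pt_countP {l : α → List β} {p : α → β → Bool} [Inhabited β] (hl : PT l)
    (hp : PT (fun q : α × β => p q.1 q.2)) : PT (fun a => (l a).countP (p a)) :=
  (pt_length (pt_filter hl hp)).congr (fun _ => List.countP_eq_length_filter.symm)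

/-! ### Equality tests -/

/-- Types with a polynomial-time equality test. -/
class DE (β : Type) [Enc β] : Prop where
  /-- the test -/
  dt : DT (fun p : β × β => p.1 = p.2)

@[fun_prop] theorem dt_eq [DE β] {f g : α → β} (hf : PT f) (hg : PT g) :
    DT (fun a => f a = g a) :=
  (DE.dt (β := β)).comp (f := fun a => (f a, g a)) (hf.pair hg)

@[fun_prop] theorem dt_ne [DE β] {f g : α → β} (hf : PT f) (hg : PT g) :
    DT (fun a => f a ≠ g a) := (dt_eq hf hg).not

instance deNat : DE ℕ := ⟨DT.eq (by fun_prop) (by fun_prop)⟩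

instance deBool : DE Bool := ⟨dt_beq (by fun_prop) (by fun_prop)⟩

instance deInt : DE ℤ := ⟨dt_ieq (by fun_prop) (by fun_prop)⟩

instance deBin : DE Bin :=
  ⟨(DT.eq (f := fun p : Bin × Bin => p.1.val) (g := fun p => p.2.val) (by fun_prop)
    (by fun_prop)).congr (fun p => by
      obtain ⟨⟨a⟩, ⟨b⟩⟩ := p
      simp)⟩

instance deProd [DE β] [DE γ] : DE (β × γ) :=
  ⟨((dt_eq (f := fun p : (β × γ) × β × γ => p.1.1) (g := fun p => p.2.1) (by fun_prop)
    (by fun_prop)).and (dt_eq (f := fun p : (β × γ) × β × γ => p.1.2) (g := fun p => p.2.2)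
    (by fun_prop) (by fun_prop))).congr (fun _ => Prod.ext_iff.symm)⟩

instance deList [DE β] [Inhabited β] : DE (List β) :=
  ⟨((dt_eq (f := fun p : List β × List β => p.1.length) (g := fun p => p.2.length) (by fun_prop)
    (by fun_prop)).and (DT.all (g := fun p : List β × List β => p.1.length)
      (p := fun p i => p.1.getD i default = p.2.getD i default) (by fun_prop)
      (dt_eq (by fun_prop) (by fun_prop)))).congr (fun p => by
      constructor
      · rintro ⟨h1, h2⟩
        refine List.ext_getElem h1 (fun i hi hi' => ?_)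
        have : p.1.getD i default = p.2.getD i default := h2 i hi
        rwa [List.getD_eq_getElem _ _ hi, List.getD_eq_getElem _ _ hi'] at this
      · intro h
        rw [h]
        exact ⟨rfl, fun _ _ => rfl⟩)⟩

@[fun_prop] theorem pt_beq [DE β] [BEq β] [LawfulBEq β] {f g : α → β} (hf : PT f) (hg : PT g) :
    PT (fun a => f a == g a) := by
  classical
  exact (pt_decide (dt_eq hf hg)).congr (fun a => by rw [Bool.eq_iff_iff]; simp)

@[fun_prop] theorem dt_mem [DE β] [Inhabited β] {x : α → β} {l : α → List β} (hx : PT x)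
    (hl : PT l) : DT (fun a => x a ∈ l a) :=
  (dt_exists_mem (p := fun a y => y = x a) hl (dt_eq (by fun_prop) (by fun_prop))).congr
    (fun a => by simp)

@[fun_prop] theorem dt_prefix [DE β] [Inhabited β] {l m : α → List β} (hl : PT l) (hm : PT m) :
    DT (fun a => l a <+: m a) :=
  (dt_eq hl (pt_take hm (pt_length hl))).congr (fun _ => List.prefix_iff_eq_take.symm)

@[fun_prop] theorem dt_suffix [DE β] [Inhabited β] {l m : α → List β} (hl : PT l) (hm : PT m) :
    DT (fun a => l a <:+ m a) :=
  (dt_eq hl (pt_drop hm (PT.sub (pt_length hm) (pt_length hl)))).congr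
    (fun _ => List.suffix_iff_eq_drop.symm)

@[fun_prop] theorem dt_infix [DE β] [Inhabited β] {l m : α → List β} (hl : PT l) (hm : PT m) :
    DT (fun a => l a <:+: m a) :=
  (DT.ex (g := fun a => (m a).length + 1) (p := fun a i => l a <+: (m a).drop i) (by fun_prop)
    (dt_prefix (by fun_prop) (by fun_prop))).congr (fun a => by
      constructor
      · rintro ⟨i, -, h⟩
        exact h.isInfix.trans (List.drop_suffix _ _).isInfix
      · rintro ⟨s, t, h⟩
        refine ⟨s.length, by rw [← h]; simp, ?_⟩
        rw [← h]
        simp)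

@[fun_prop] theorem pt_count [DE β] [Inhabited β] [BEq β] [LawfulBEq β] {x : α → β}
    {l : α → List β} (hx : PT x) (hl : PT l) : PT (fun a => (l a).count (x a)) :=
  pt_countP (p := fun a y => y == x a) hl (pt_beq (by fun_prop) (by fun_prop))

/-! ### Search -/

@[fun_prop] theorem pt_findIdx {l : α → List β} {p : α → β → Bool} [Inhabited β] (hl : PT l)
    (hp : PT (fun q : α × β => p q.1 q.2)) : PT (fun a => (l a).findIdx (p a)) := by
  have h1 : PT (fun q : α × ℕ => ((l q.1).take (q.2 + 1)).all (fun x => !p q.1 x)) :=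
    pt_all (p := fun (q : α × ℕ) x => !p q.1 x) (by fun_prop)
      (PT.not (hp.comp (f := fun r : (α × ℕ) × β => (r.1.1, r.2)) (by fun_prop)))
  refine (pt_countP (p := fun a i => ((l a).take (i + 1)).all (fun x => !p a x))
    (pt_range (pt_length hl)) h1).congr (fun a => ?_)
  generalize l a = x
  induction x with
  | nil => rfl
  | cons y x ih =>
    rw [List.length_cons, List.range_succ_eq_map, List.countP_cons, List.countP_map,
      List.findIdx_cons]
    cases h : p a y
    · simp only [cond_false, ← ih]
      simp [h, Function.comp_def]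
    · simp [h, Function.comp_def]

@[fun_prop] theorem pt_idxOf [DE β] [Inhabited β] [BEq β] [LawfulBEq β] {x : α → β}
    {l : α → List β} (hx : PT x) (hl : PT l) : PT (fun a => (l a).idxOf (x a)) :=
  pt_findIdx (p := fun a y => y == x a) hl (pt_beq (by fun_prop) (by fun_prop))

@[fun_prop] theorem pt_erase [DE β] [Inhabited β] [BEq β] [LawfulBEq β] {x : α → β}
    {l : α → List β} (hx : PT x) (hl : PT l) : PT (fun a => (l a).erase (x a)) :=
  (pt_eraseIdx hl (pt_idxOf hx hl)).congr (fun a => by
    rw [List.eraseIdx_idxOf_eq_erase])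

/-- `(l.find? p).getD d` -/
@[fun_prop] theorem pt_findD {l : α → List β} {p : α → β → Bool} {d : α → β} [Inhabited β]
    (hl : PT l) (hp : PT (fun q : α × β => p q.1 q.2)) (hd : PT d) :
    PT (fun a => ((l a).find? (p a)).getD (d a)) :=
  (pt_headD (pt_filter hl hp) hd).congr (fun a => by
    rw [List.headD_eq_head?_getD, List.head?_filter])

/-! ### Folds -/

theorem foldl_eq_rec {δ ε : Type} (l : List δ) (d : δ) (z : ε) (s : ε → δ → ε) (i : ℕ)
    (hi : i ≤ l.length) :
    (Nat.rec z (fun j b => s b (l.getD j d)) i : ε) = (l.take i).foldl s z := by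
  induction i with
  | zero => rfl
  | succ i ih =>
    show s _ _ = _
    rw [ih (by omega), List.take_add_one, List.foldl_append, List.getD_eq_getElem _ _ (by omega),
      List.getElem?_eq_getElem (by omega)]
    rfl

/-- left fold with a size bound on all intermediate values -/
theorem pt_foldl {l : α → List β} {z : α → γ} {s : α → γ → β → γ} [Inhabited β] (hl : PT l)
    (hz : PT z) (hs : PT (fun p : α × γ × β => s p.1 p.2.1 p.2.2)) {B : α → ℕ} (hB : PB B)
    (hb : ∀ a i, sz (((l a).take i).foldl (s a) (z a)) ≤ B a) :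
    PT (fun a => (l a).foldl (s a) (z a)) :=
  (PT.natRec (s := fun a j b => s a b ((l a).getD j default)) (pt_length hl) hz
    (hs.comp (f := fun p : α × ℕ × γ => (p.1, p.2.2, (l p.1).getD p.2.1 default)) (by fun_prop)) hB
    (fun a i hi => by rw [foldl_eq_rec _ _ _ _ _ hi]; exact hb a i)).congr
    (fun a => by rw [foldl_eq_rec _ _ _ _ _ le_rfl, List.take_length])

/-- left fold where each step adds a polynomially bounded amount of size -/
theorem pt_foldl_add {l : α → List β} {z : α → γ} {s : α → γ → β → γ} [Inhabited β] (hl : PT l)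
    (hz : PT z) (hs : PT (fun p : α × γ × β => s p.1 p.2.1 p.2.2)) {C : α × β → ℕ} (hC : PB C)
    (hb : ∀ a b x, sz (s a b x) ≤ sz b + C (a, x)) :
    PT (fun a => (l a).foldl (s a) (z a)) :=
  (PT.natRec_add (s := fun a j b => s a b ((l a).getD j default)) (pt_length hl) hz
    (hs.comp (f := fun p : α × ℕ × γ => (p.1, p.2.2, (l p.1).getD p.2.1 default)) (by fun_prop))
    (C := fun q => C (q.1, (l q.1).getD q.2 default))
    (hC.comp (f := fun q : α × ℕ => (q.1, (l q.1).getD q.2 default)) (PT.pb (by fun_prop)))
    (fun a i b => hb a b _)).congr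
    (fun a => by rw [foldl_eq_rec _ _ _ _ _ le_rfl, List.take_length])

/-- iteration of a parametrised step with a size bound -/
theorem pt_iterate {f : α → β → β} {n : α → ℕ} {z : α → β}
    (hf : PT (fun p : α × β => f p.1 p.2)) (hn : PT n) (hz : PT z) {B : α → ℕ} (hB : PB B)
    (hb : ∀ a i, i ≤ n a → sz ((f a)^[i] (z a)) ≤ B a) : PT (fun a => (f a)^[n a] (z a)) := by
  have key : ∀ a i, (Nat.rec (z a) (fun _ b => f a b) i : β) = (f a)^[i] (z a) := by
    intro a i
    induction i with
    | zero => rfl
    | succ i ih => rw [Function.iterate_succ_apply', ← ih]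
  exact (PT.natRec (s := fun a _ b => f a b) hn hz
    (hf.comp (f := fun p : α × ℕ × β => (p.1, p.2.2)) (by fun_prop)) hB
    (fun a i hi => by rw [key]; exact hb a i hi)).congr (fun a => key _ _)

@[fun_prop] theorem pt_dedup [DE β] [Inhabited β] [DecidableEq β] {l : α → List β} (hl : PT l) :
    PT (fun a => (l a).dedup) := by
  have h : PT (fun a => catL (l a).length (fun i =>
      if (l a).getD i default ∈ (l a).drop (i + 1) then [] else [(l a).getD i default])) := by
    fun_prop
  refine h.congr (fun a => ?_)
  generalize l a = x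
  induction x with
  | nil => rfl
  | cons y x ih =>
    rw [catL, List.length_cons, List.range_succ_eq_map, List.flatMap_cons, List.flatMap_map,
      List.dedup_cons, ← ih]
    by_cases h : y ∈ x <;> simp [h, catL]

/-- maximum of a list of unary numbers -/
@[fun_prop] theorem pt_foldrMax {l : α → List ℕ} (hl : PT l) :
    PT (fun a => (l a).foldr max 0) := by
  have h := pt_foldl_add (s := fun _ b x => max x b) (pt_reverse hl) (PT.const (0 : ℕ))
    (by fun_prop) (C := fun q => q.2) (PT.pbNat (by fun_prop))
    (fun a b x => by simp only [sz_nat]; omega)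
  exact h.congr (fun a => by rw [List.foldl_reverse])

/-- The least `i < n` with `p i`, or `n` if there is none. -/
def fnd (n : ℕ) (p : ℕ → Bool) : ℕ := (List.range n).findIdx p

@[fun_prop] theorem pt_fnd {n : α → ℕ} {p : α → ℕ → Bool} (hn : PT n)
    (hp : PT (fun q : α × ℕ => p q.1 q.2)) : PT (fun a => fnd (n a) (p a)) :=
  pt_findIdx (pt_range hn) hp

theorem fnd_spec (n : ℕ) (p : ℕ → Bool) :
    fnd n p ≤ n ∧ (∀ j < fnd n p, p j = false) ∧ (fnd n p < n → p (fnd n p) = true) := by
  have h1 : fnd n p ≤ n := by simpa [fnd] using List.findIdx_le_length (p := p) (xs := List.range n)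
  refine ⟨h1, fun j hj => ?_, fun h => ?_⟩
  · have := List.not_of_lt_findIdx (p := p) (xs := List.range n) hj
    simpa using this
  · have := List.findIdx_getElem (p := p) (xs := List.range n) (w := by simpa [fnd] using h)
    simpa [fnd] using this

theorem fnd_lt_iff (n : ℕ) (p : ℕ → Bool) : fnd n p < n ↔ ∃ i < n, p i = true := by
  obtain ⟨h1, h2, h3⟩ := fnd_spec n p
  refine ⟨fun h => ⟨_, h, h3 h⟩, fun ⟨i, hi, h⟩ => ?_⟩
  by_contra h4
  have := h2 i (by omega)
  simp [h] at this

/-- an element of `l` minimising `f` (or `d` for the empty list) -/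
def argmin {δ : Type} (l : List δ) (f : δ → ℕ) (d : δ) : δ :=
  (l.find? (fun x => l.all (fun y => decide (f x ≤ f y)))).getD d

/-- an element of `l` maximising `f` (or `d` for the empty list) -/
def argmax {δ : Type} (l : List δ) (f : δ → ℕ) (d : δ) : δ :=
  (l.find? (fun x => l.all (fun y => decide (f y ≤ f x)))).getD d

theorem pt_argmin {l : α → List β} {f : α → β → ℕ} {d : α → β} [Inhabited β] (hl : PT l)
    (hf : BT (fun q : α × β => f q.1 q.2)) (hd : PT d) :
    PT (fun a => argmin (l a) (f a) (d a)) :=
  pt_findD (p := fun a x => (l a).all (fun y => decide (f a x ≤ f a y))) hl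
    (pt_all (p := fun (q : α × β) y => decide (f q.1 q.2 ≤ f q.1 y)) (by fun_prop)
      (pt_decide (DT.le (hf.comp (f := fun r : (α × β) × β => r.1) (by fun_prop))
        (hf.comp (f := fun r : (α × β) × β => (r.1.1, r.2)) (by fun_prop))))) hd

theorem pt_argmax {l : α → List β} {f : α → β → ℕ} {d : α → β} [Inhabited β] (hl : PT l)
    (hf : BT (fun q : α × β => f q.1 q.2)) (hd : PT d) :
    PT (fun a => argmax (l a) (f a) (d a)) :=
  pt_findD (p := fun a x => (l a).all (fun y => decide (f a y ≤ f a x))) hl
    (pt_all (p := fun (q : α × β) y => decide (f q.1 y ≤ f q.1 q.2)) (by fun_prop)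
      (pt_decide (DT.le (hf.comp (f := fun r : (α × β) × β => (r.1.1, r.2)) (by fun_prop))
        (hf.comp (f := fun r : (α × β) × β => r.1) (by fun_prop))))) hd

theorem find_getD_spec {δ : Type} (l : List δ) (p : δ → Bool) (d : δ) (h : ∃ x ∈ l, p x = true) :
    (l.find? p).getD d ∈ l ∧ p ((l.find? p).getD d) = true := by
  cases e : l.find? p with
  | none =>
    obtain ⟨x, hx, hp⟩ := h
    exact absurd hp (List.find?_eq_none.1 e x hx)
  | some y => exact ⟨List.mem_of_find?_eq_some e, List.find?_some e⟩

theorem argmin_spec {δ : Type} (l : List δ) (f : δ → ℕ) (d : δ) (h : l ≠ []) :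
    argmin l f d ∈ l ∧ ∀ y ∈ l, f (argmin l f d) ≤ f y := by
  classical
  obtain ⟨x, hx, hm⟩ := Finset.exists_min_image l.toFinset f (by simpa using h)
  have := find_getD_spec l (fun x => l.all (fun y => decide (f x ≤ f y))) d
    ⟨x, by simpa using hx, by simpa using hm⟩
  exact ⟨this.1, by simpa [argmin] using this.2⟩

theorem argmax_spec {δ : Type} (l : List δ) (f : δ → ℕ) (d : δ) (h : l ≠ []) :
    argmax l f d ∈ l ∧ ∀ y ∈ l, f y ≤ f (argmax l f d) := by
  classical
  obtain ⟨x, hx, hm⟩ := Finset.exists_max_image l.toFinset f (by simpa using h)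
  have := find_getD_spec l (fun x => l.all (fun y => decide (f y ≤ f x))) d
    ⟨x, by simpa using hx, by simpa using hm⟩
  exact ⟨this.1, by simpa [argmax] using this.2⟩

theorem anchor : True := by
  have := @catL.eq_1; have := @fnd.eq_1; have := @argmin.eq_1; have := @argmax.eq_1
  trivial

end Crest.Agent.R287
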