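import Crest.Agent.R287.Bas

/-! Row 287, task ACOV: a staircase that follows a periodic word for one period less. -/

set_option autoImplicit false

namespace Crest.Agent.R287

open Finset

namespace ACOV

variable {I : Type} [Fintype I]

lemma card_perm (π : Equiv.Perm I) (p : I → Prop) [DecidablePred p]
    [DecidablePred (fun j => p (π j))] :
    (univ.filter p).card = (univ.filter fun j => p (π j)).card := by
  symm
  refine card_bij (fun j _ => π j) (fun j hj => by simpa using hj)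
    (fun a _ b _ h => π.injective h) (fun i hi => ⟨π.symm i, by simpa using hi, by simp⟩)

lemma brk_iff (A : Sys I) (P : ℤ → ℕ) (j : I) (b : ℤ) {x e : ℤ} (h : x ≤ e) :
    Brk P x e (A.tk j b (e + 1)) ↔
      (A.lf j b (e + 1) ≤ x ∧ ∀ z, x ≤ z → z < e → A.wd j b z = P z) ∧ A.wd j b e ≠ P e ∧
        ¬ ∀ z, A.lf j b (e + 1) ≤ z → z < e → A.wd j b z = P z := by
  have hL := A.lf_succ_le j b e
  have h1 : (A.tk j b (e + 1)).dropLast = iv (A.wd j b) (A.lf j b (e + 1)) e := by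
    rw [A.tk_eq, iv_dropLast]
  have h2 : sw P e ((A.tk j b (e + 1)).length - 1) = iv P (A.lf j b (e + 1)) e := by
    rw [sw_eq_iv]
    congr 1
    have := List.length_pos_iff.2 (A.tk_ne j b (e + 1))
    unfold Sys.lf
    omega
  unfold Brk
  rw [h2, h1, iv_suffix_iff _ _ h hL, Ne, Ne, iv_eq_iff]
  rfl

open Classical in
/-- staircases with base `b` that leave `P` at position `e` -/
noncomputable def Bk (A : Sys I) (P : ℤ → ℕ) (x b e : ℤ) : Finset I :=
  univ.filter fun j => Brk P x e (A.tk j b (e + 1))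

open Classical in
lemma card_Bk (A : Sys I) (P : ℤ → ℕ) (x b e : ℤ) :
    (univ.filter fun i => Brk P x e (A.V i)).card = (Bk A P x b e).card :=
  card_perm (A.σ ^ (e + 1 - b)) _

lemma mem_Bk {A : Sys I} {P : ℤ → ℕ} {x b e : ℤ} (h : x ≤ e) {j : I} :
    j ∈ Bk A P x b e ↔
      (A.lf j b (e + 1) ≤ x ∧ ∀ z, x ≤ z → z < e → A.wd j b z = P z) ∧ A.wd j b e ≠ P e ∧
        ¬ ∀ z, A.lf j b (e + 1) ≤ z → z < e → A.wd j b z = P z := by
  classical
  unfold Bk
  rw [mem_filter, brk_iff A P j b h]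
  simp only [mem_univ, true_and]

open Classical in
lemma sum_Bk (A : Sys I) (P : ℤ → ℕ) {x u : ℤ} (b v : ℤ) (h : x ≤ u) :
    ∑ e ∈ Ico u v, (univ.filter fun i => Brk P x e (A.V i)).card =
      ((Ico u v).biUnion (Bk A P x b)).card := by
  rw [card_biUnion, sum_congr rfl (fun e _ => card_Bk A P x b e)]
  intro e he e' he' hne
  rw [coe_Ico, Set.mem_Ico] at he he'
  rw [Function.onFun, disjoint_left]
  intro j h1 h2
  rw [mem_Bk (by omega)] at h1 h2
  rcases lt_or_gt_of_ne hne with hlt | hlt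
  · exact h1.2.1 (h2.1.2 e (by omega) hlt)
  · exact h2.2.1 (h1.1.2 e' (by omega) hlt)

end ACOV

theorem ACOV_proof : AcovStmt := by
  classical
  intro I _ A P l x y j₀ hl hP hxy hw hf
  have hl' : (0 : ℤ) < l := by exact_mod_cast hl
  have hcov : ∀ (j : I) (b : ℤ), x ≤ b → (iv P x b <:+ A.V j ↔
      A.lf j b b ≤ x ∧ ∀ z, x ≤ z → z < b → A.wd j b z = P z) := fun j b hb => by
    rw [← A.tk_self j b, A.cover_iff P j b hb]
  have h1 := A.rule P l x y hl hP hxy (by
    rw [ACOV.sum_Bk A P y (x + A.N) (by omega : x ≤ y)]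
    refine card_lt_card ⟨fun j hj => ?_, fun hsub => ?_⟩
    · rw [mem_biUnion] at hj
      obtain ⟨e, he, hj⟩ := hj
      rw [mem_Ico] at he
      rw [ACOV.mem_Bk (by omega)] at hj
      rw [mem_filter, hcov j y (by omega)]
      exact ⟨mem_univ _, (A.lf_mono j y (by omega : y ≤ e + 1)).trans hj.1.1,
        fun z z1 z2 => hj.1.2 z z1 (by omega)⟩
    · have h0 : j₀ ∈ univ.filter fun i => iv P x y <:+ A.V i := by
        rw [mem_filter, hcov j₀ y (by omega)]
        exact ⟨mem_univ _, hf, fun z _ _ => by rw [hw]⟩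
      have hj := hsub h0
      rw [mem_biUnion] at hj
      obtain ⟨e, he, hj⟩ := hj
      rw [mem_Ico] at he
      rw [ACOV.mem_Bk (by omega), hw] at hj
      exact hj.2.1 rfl)
  rw [ACOV.sum_Bk A P (y - l) y (by omega : x ≤ y - l),
    ACOV.card_perm (A.σ ^ (y - (y - l))) (fun i => iv P x y <:+ A.V i)] at h1
  have h2 := card_union_le (univ.filter fun j => iv P x y <:+ A.V ((A.σ ^ (y - (y - l))) j))
    ((Ico (y - l) y).biUnion (ACOV.Bk A P x (y - l)))
  obtain ⟨j, hj, hjn⟩ := exists_mem_notMem_of_card_lt_card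
    (lt_of_le_of_lt h2 (lt_of_lt_of_le (by omega) h1))
  rw [mem_filter, hcov j (y - l) (by omega)] at hj
  rw [mem_union, not_or, mem_filter] at hjn
  have hM : ¬ (A.lf j (y - l) y ≤ x ∧ ∀ z, x ≤ z → z < y → A.wd j (y - l) z = P z) := fun h =>
    hjn.1 ⟨mem_univ _, (A.cover_iff P j (y - l) (by omega : x ≤ y)).2 h⟩
  refine ⟨j, hj.2.1, hj.2.2, hM, fun X Y hX hY hag hX1 hY1 => ?_⟩
  by_contra hlt
  push Not at hlt
  rcases lt_or_ge Y y with hYy | hYy
  · refine hjn.2 (mem_biUnion.2 ⟨Y, mem_Ico.2 ⟨hY, hYy⟩, ?_⟩)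
    rw [ACOV.mem_Bk (by omega)]
    exact ⟨⟨by omega, fun z z1 z2 => hag z (by omega) z2⟩, hY1,
      fun h => hX1 (h (X - 1) (by omega) (by omega))⟩
  · refine hM ⟨?_, fun z z1 z2 => hag z (by omega) (by omega)⟩
    have := A.lf_mono j (y - l) (by omega : y ≤ Y + 1)
    omega

end Crest.Agent.R287
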