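import Crest.Agent.R287.Stmts

/-! Row 287: from lists of cycles to the abstract system. -/

set_option autoImplicit false

namespace Crest.Agent.R287

open Crest.Agent.PT

namespace BRG

theorem sum_get {α : Type} (f : α → ℕ) :
    ∀ l : List α, ∑ p : Fin l.length, f (l.get p) = (l.map f).sum
  | [] => by simp
  | a :: l => by
    have := sum_get f l
    simp only [List.length_cons, Fin.sum_univ_succ, List.map_cons, List.sum_cons, ← this]
    rfl

theorem countP_eq_sum {α : Type} (q : α → Bool) :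
    ∀ l : List α, l.countP q = (l.map fun a => if q a = true then 1 else 0).sum
  | [] => by simp
  | a :: l => by
    rw [List.countP_cons, List.map_cons, List.sum_cons, countP_eq_sum q l, add_comm]

/-- indices of the tokens -/
abbrev Ix (L : List (List Str)) : Type := Σ k : Fin L.length, Fin (L.get k).length

/-- the tokens -/
def tok (L : List (List Str)) (i : Ix L) : Str := (L.get i.1).get i.2

/-- the successor -/
def suc (L : List (List Str)) : Equiv.Perm (Ix L) := Equiv.sigmaCongrRight fun _ => finRotate _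

theorem card_eq (L : List (List Str)) (Q : Str → Prop) [DecidablePred fun i : Ix L => Q (tok L i)]
    (q : Str → Bool) (h : ∀ V, q V = true ↔ Q V) :
    (Finset.univ.filter fun i : Ix L => Q (tok L i)).card = L.flatten.countP q := by
  rw [Finset.card_filter, List.countP_flatten, ← sum_get, Fintype.sum_sigma]
  refine Finset.sum_congr rfl fun k _ => ?_
  rw [countP_eq_sum, ← sum_get]
  refine Finset.sum_congr rfl fun p _ => ?_
  have := h ((L.get k).get p)
  by_cases h1 : Q (tok L ⟨k, p⟩)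
  · rw [if_pos h1, if_pos (this.2 h1)]
  · rw [if_neg h1, if_neg fun h2 => h1 (this.1 h2)]

theorem rot_val {n : ℕ} (p : Fin n) : (finRotate n p).val = (p.val + 1) % n := by
  cases n with
  | zero => exact p.elim0
  | succ n => rw [finRotate_apply, Fin.val_add, Fin.val_one', Nat.add_mod_mod]

theorem suc_pow (L : List (List Str)) (k : Fin L.length) (p : Fin (L.get k).length) :
    ∀ m : ℕ, ∃ p' : Fin (L.get k).length, (suc L ^ m) ⟨k, p⟩ = ⟨k, p'⟩ ∧
      p'.val = (p.val + m) % (L.get k).length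
  | 0 => ⟨p, rfl, (Nat.mod_eq_of_lt p.2).symm⟩
  | m + 1 => by
    obtain ⟨p', h1, h2⟩ := suc_pow L k p m
    refine ⟨finRotate _ p', ?_, ?_⟩
    · rw [pow_succ', Equiv.Perm.mul_apply, h1]
      rfl
    · rw [rot_val, h2, Nat.mod_add_mod, add_assoc]

theorem sameCycle (L : List (List Str)) (k : Fin L.length) (p p' : Fin (L.get k).length) :
    (suc L).SameCycle ⟨k, p⟩ ⟨k, p'⟩ := by
  obtain ⟨p'', h1, h2⟩ := suc_pow L k p (p'.val + ((L.get k).length - p.val))
  refine ⟨((p'.val + ((L.get k).length - p.val) : ℕ) : ℤ), ?_⟩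
  rw [zpow_natCast, h1]
  congr 1
  apply Fin.ext
  have := p.2
  rw [h2, show p.val + (p'.val + ((L.get k).length - p.val)) = p'.val + (L.get k).length by omega,
    Nat.add_mod_right, Nat.mod_eq_of_lt p'.2]

theorem tok_eq (L : List (List Str)) (k : Fin L.length) (p : Fin (L.get k).length) :
    tok L ⟨k, p⟩ = (L.get k).getD p [] := by
  rw [List.getD_eq_getElem _ _ p.2]
  rfl

theorem tok_suc (L : List (List Str)) (k : Fin L.length) (p : Fin (L.get k).length) :
    tok L (suc L ⟨k, p⟩) = (L.get k).getD ((p + 1) % (L.get k).length) [] := by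
  rw [← rot_val]
  exact tok_eq L k _

theorem tok_mem (L : List (List Str)) (i : Ix L) : tok L i ∈ L.flatten :=
  List.mem_flatten.2 ⟨_, List.get_mem _ _, List.get_mem _ _⟩

theorem exists_tok (L : List (List Str)) {V : Str} (h : V ∈ L.flatten) : ∃ i, tok L i = V := by
  obtain ⟨Z, hZ, hV⟩ := List.mem_flatten.1 h
  obtain ⟨k, rfl⟩ := List.get_of_mem hZ
  obtain ⟨p, rfl⟩ := List.get_of_mem hV
  exact ⟨⟨k, p⟩, rfl⟩

theorem sum_range_eq (g : ℕ → ℕ) :
    ∀ n : ℕ, ∑ k ∈ Finset.range n, g k = ((List.range n).map g).sum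
  | 0 => by simp
  | n + 1 => by
    rw [Finset.sum_range_succ, List.range_succ, List.map_append, List.sum_append, sum_range_eq g n]
    simp

theorem sum_Ico (f : ℤ → ℕ) (x : ℤ) (a b : ℕ) :
    ∑ e ∈ Finset.Ico (x + a) (x + b), f e =
      ((List.range (b - a)).map fun k => f (x + ((a + k : ℕ) : ℤ))).sum := by
  rw [← sum_range_eq]
  symm
  refine Finset.sum_bij (fun k _ => x + ((a + k : ℕ) : ℤ)) ?_ ?_ ?_ ?_
  · intro k hk
    rw [Finset.mem_range] at hk
    rw [Finset.mem_Ico]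
    constructor <;> push_cast <;> omega
  · intro k _ k' _ h
    push_cast at h
    omega
  · intro e he
    rw [Finset.mem_Ico] at he
    refine ⟨(e - x - a).toNat, ?_, ?_⟩
    · rw [Finset.mem_range]
      omega
    · push_cast
      omega
  · intro k _
    rfl

theorem per_mul {P : ℤ → ℕ} {l : ℕ} (h : ∀ z, P (z + l) = P z) (z m : ℤ) :
    P (z + l * m) = P z := by
  have hp : Function.Periodic P (l : ℤ) := h
  have := hp.int_mul m z
  rwa [Int.cast_id, mul_comm] at this

theorem sw_def (P : ℤ → ℕ) (e : ℤ) (n : ℕ) :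
    sw P e n = (List.range n).map fun k : ℕ => P (e - n + k) := rfl

theorem sw_length (P : ℤ → ℕ) (e : ℤ) (n : ℕ) : (sw P e n).length = n := by simp [sw_def]

theorem sw_getD (P : ℤ → ℕ) (e : ℤ) {n j : ℕ} (h : j < n) :
    (sw P e n).getD j 0 = P (e - n + j) := by
  rw [List.getD_eq_getElem _ _ (by rw [sw_length]; exact h)]
  simp [sw_def]

theorem iv_eq (P : ℤ → ℕ) (x : ℤ) (e : ℕ) : iv P x (x + e) = sw P (x + e) e := by
  unfold iv
  congr 1
  omega

theorem getD_mod {P : ℤ → ℕ} {l : ℕ} (hl : 0 < l) (h : ∀ z, P (z + l) = P z) (x : ℤ) {n : ℕ}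
    (hn : l < n) (j : ℕ) : (sw P (x + n) n).getD (j % l) 0 = P (x + j) := by
  rw [sw_getD P _ ((Nat.mod_lt _ hl).trans hn), ← per_mul h _ ((j / l : ℕ) : ℤ)]
  congr 1
  have := Nat.mod_add_div j l
  have h2 : ((j % l : ℕ) : ℤ) + l * ((j / l : ℕ) : ℤ) = j := by exact_mod_cast this
  linarith

theorem seg_eq {P : ℤ → ℕ} {l : ℕ} (hl : 0 < l) (h : ∀ z, P (z + l) = P z) (x : ℤ) {n : ℕ}
    (hn : l < n) (e m : ℕ) : seg (sw P (x + n) n) l e m = sw P (x + e) m := by
  unfold seg
  rw [sw_def P (x + e) m]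
  refine List.map_congr_left fun k _ => ?_
  rw [getD_mod hl h x hn, ← per_mul h (x + e - m + k) m]
  congr 1
  obtain ⟨l', rfl⟩ : ∃ l', l = l' + 1 := ⟨l - 1, by omega⟩
  simp only [Nat.add_sub_cancel]
  push_cast
  ring

theorem brk_iff {P : ℤ → ℕ} {l : ℕ} (hl : 0 < l) (h : ∀ z, P (z + l) = P z) (x : ℤ) {n : ℕ}
    (hn : l < n) (e : ℕ) (V : Str) :
    brk (sw P (x + n) n) l e V = true ↔ Brk P x (x + e) V := by
  unfold brk Brk
  rw [decide_eq_true_iff, seg_eq hl h x hn, seg_eq hl h x hn, getD_mod hl h x hn, iv_eq]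

theorem sw_prefix (P : ℤ → ℕ) (x : ℤ) {m n : ℕ} (h : m ≤ n) :
    sw P (x + m) m <+: sw P (x + n) n := by
  obtain ⟨r, rfl⟩ := Nat.exists_eq_add_of_le h
  rw [sw_def, sw_def]
  rw [List.range_add, List.map_append]
  refine ⟨_, congrArg (· ++ _) (List.map_congr_left fun k _ => ?_)⟩
  congr 1
  ring

theorem sw_suffix {P : ℤ → ℕ} {l : ℕ} (h : ∀ z, P (z + l) = P z) (x : ℤ) (m : ℕ) :
    sw P (x + m) m <:+ sw P (x + (l + m : ℕ)) (l + m) := by
  rw [sw_def, sw_def]
  rw [List.range_add, List.map_append, List.map_map]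
  refine ⟨_, congrArg (_ ++ ·) (List.map_congr_left fun k _ => ?_)⟩
  rw [← h]
  simp only [Function.comp]
  congr 1
  push_cast
  ring

open Classical in
theorem sum_brk (L : List (List Str)) {P : ℤ → ℕ} {l : ℕ} (hl : 0 < l)
    (h : ∀ z, P (z + l) = P z) (x : ℤ) {n : ℕ} (hn : l < n) (a b : ℕ) :
    ∑ e ∈ Finset.Ico (x + a) (x + b),
        (Finset.univ.filter fun i : Ix L => Brk P x e (tok L i)).card =
      brs L.flatten (sw P (x + n) n) l a b := by
  rw [sum_Ico]
  unfold brs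
  congr 1
  refine List.map_congr_left fun k _ => ?_
  exact card_eq L (Brk P x _) _ (brk_iff hl h x hn _)

/-- the abstract system of a list of cycles -/
noncomputable def sys {S : List Str} {N : ℕ} (u : ℕ) (L : List (List Str))
    (hF : Forced S N L.flatten) (hC : ∀ Z ∈ L, Cyc Z) : Sys (Ix L) where
  σ := suc L
  V := tok L
  c := fun i => (L.get i.1).length
  rt := fun i => u ≤ i.1.val
  N := N
  ne := fun i => hF.ne _ (tok_mem L i)
  len := fun i => hF.len _ (tok_mem L i)
  chain := by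
    rintro ⟨k, p⟩
    rw [tok_suc, tok_eq]
    exact (hC _ (List.get_mem _ _)).2 p p.2
  cpos := fun i => i.2.pos
  cper := by
    rintro ⟨k, p⟩
    obtain ⟨p', h1, h2⟩ := suc_pow L k p (L.get k).length
    rw [h1]
    congr 1
    apply Fin.ext
    rw [h2, Nat.add_mod_right, Nat.mod_eq_of_lt p.2]
  cinv := fun _ => rfl
  rinv := fun _ => Iff.rfl
  rule := by
    classical
    intro P l x y hl hP hxy H
    obtain ⟨m, rfl⟩ : ∃ m : ℕ, y = x + ((l + m : ℕ) : ℤ) := ⟨(y - x - l).toNat, by push_cast; omega⟩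
    have hm : 0 < m := by push_cast at hxy; omega
    have e1 : x + ((l + m : ℕ) : ℤ) - l = x + m := by push_cast; ring
    have hn : l < l + m := by omega
    have c1 := card_eq L (fun V => sw P (x + ((l + m : ℕ) : ℤ)) (l + m) <:+ V)
      (fun V => decide (sw P (x + ((l + m : ℕ) : ℤ)) (l + m) <:+ V)) (fun V => decide_eq_true_iff)
    have c2 := card_eq L (fun V => sw P (x + m) m <:+ V)
      (fun V => decide (sw P (x + m) m <:+ V)) (fun V => decide_eq_true_iff)
    have s1 := sum_brk L hl hP x hn (l + m) N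
    have s2 := sum_brk L hl hP x hn m (l + m)
    have key := hF.per (sw P (x + m) m) (sw P (x + ((l + m : ℕ) : ℤ)) (l + m))
      (by rw [← List.length_pos_iff, sw_length]; exact hm) (by rw [sw_length, sw_length]; omega)
      (sw_prefix P x (by omega)) (sw_suffix hP x m)
    simp only [sw_length, Nat.add_sub_cancel] at key
    unfold cnt at key
    rw [← c1, ← c2, ← s1, ← s2] at key
    rw [e1, iv_eq, iv_eq]
    rw [iv_eq] at H
    convert key (by convert H)

theorem get_left (U Rt : List (List Str)) (k : Fin (U ++ Rt).length) (h : ¬ U.length ≤ k.val) :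
    (U ++ Rt).get k = U.getD k [] := by
  rw [List.getD_eq_getElem _ _ (by omega), List.get_eq_getElem,
    List.getElem_append_left (by omega)]

theorem get_right (U Rt : List (List Str)) (k : Fin (U ++ Rt).length) (h : U.length ≤ k.val) :
    (U ++ Rt).get k ∈ Rt := by
  rw [List.get_eq_getElem, List.getElem_append_right h]
  exact List.getElem_mem _

end BRG

open BRG in
theorem BRG_proof (hVert : VertStmt) (hCore : CoreStmt) : CoreLStmt := by
  classical
  intro S N U Rt hF hC s hs hne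
  let A := sys U.length (U ++ Rt) hF hC
  obtain ⟨V, hV, hsV⟩ := hF.inp s hs hne
  obtain ⟨i₁, rfl⟩ := exists_tok _ hV
  obtain ⟨i₀, h0, hmax⟩ := Finset.exists_max_image
    (Finset.univ.filter fun i : Ix (U ++ Rt) => s <:+: tok _ i) (fun i => (tok _ i).length)
    ⟨i₁, by simpa using hsV.isInfix⟩
  have h0' : s <:+: tok _ i₀ := (Finset.mem_filter.1 h0).2
  by_cases hr : A.rt i₀
  · exact Or.inl ⟨_, get_right U Rt i₀.1 hr, _, List.get_mem _ i₀.2, h0'⟩
  right
  have hM : A.Move := hCore _ A i₀ hr fun j hj =>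
    hmax j (Finset.mem_filter.2 ⟨Finset.mem_univ _, h0'.trans hj⟩)
  have hv : ∀ (i : Ix (U ++ Rt)) (w : Str), A.Vert i w → w ∈ verts ((U ++ Rt).get i.1) := by
    rintro ⟨k, p⟩ w ⟨h1, h2⟩
    have hZ : (U ++ Rt).get k ∈ U ++ Rt := List.get_mem _ _
    refine ((hVert _ (hC _ hZ) fun V hV =>
      hF.ne V (List.mem_flatten.2 ⟨_, hZ, hV⟩)).1 w).2 ⟨p, p.2, ?_, ?_⟩
    · rw [← tok_suc]
      exact h1
    · rw [← tok_eq]
      exact h2
  have hv' : ∀ (i : Ix (U ++ Rt)) (w : Str), ¬ A.rt i → A.Vert i w →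
      w ∈ verts (U.getD i.1 []) := by
    intro i w hi hw
    rw [← get_left U Rt i.1 hi]
    exact hv i w hw
  have hc : ∀ i : Ix (U ++ Rt), ¬ A.rt i → A.c i = (U.getD i.1 []).length := by
    intro i hi
    rw [← get_left U Rt i.1 hi]
    rfl
  have hlt : ∀ i : Ix (U ++ Rt), ¬ A.rt i → i.1.val < U.length := fun i hi => not_le.1 hi
  have hd : ∀ i j : Ix (U ++ Rt), ¬ A.σ.SameCycle i j → i.1.val ≠ j.1.val := by
    rintro ⟨k, p⟩ ⟨k', p'⟩ h1 h2
    obtain rfl : k = k' := Fin.ext h2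
    exact h1 (sameCycle _ k p p')
  rcases hM with ⟨i, w, hi, hw, h⟩ | ⟨i, j, w, w', hi, hj, hw, hw', h⟩ |
    ⟨i, j, w, w', hi, hj, hij, hw, hw', h⟩ |
    ⟨i, j, k, w, w', w'', hi, hj, hk, hij, hik, hjk, hw, hw', hw'', h⟩
  · exact Or.inl ⟨i.1, hlt i hi, w, hv' i w hi hw, by rwa [hc i hi] at h⟩
  · exact Or.inr (Or.inl ⟨i.1, hlt i hi, w, hv' i w hi hw, _, get_right U Rt j.1 hj, w',
      hv j w' hw', by rwa [hc i hi] at h⟩)
  · exact Or.inr (Or.inr (Or.inl ⟨i.1, hlt i hi, j.1, hlt j hj, hd i j hij, w, hv' i w hi hw,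
      w', hv' j w' hj hw', by rwa [hc i hi, hc j hj] at h⟩))
  · exact Or.inr (Or.inr (Or.inr ⟨i.1, hlt i hi, j.1, hlt j hj, k.1, hlt k hk, hd i j hij,
      hd i k hik, hd j k hjk, w, hv' i w hi hw, w', hv' j w' hj hw', w'', hv' k w'' hk hw'',
      by rwa [hc i hi, hc j hj, hc k hk] at h⟩))

end Crest.Agent.R287
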