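import Crest.Agent.R287.Stmts

/-! Row 287: basic facts on `iv` and on staircases. -/

set_option autoImplicit false

namespace Crest.Agent.R287

@[simp] theorem length_sw (P : ℤ → ℕ) (e : ℤ) (n : ℕ) : (sw P e n).length = n := by simp [sw]

@[simp] theorem length_iv (P : ℤ → ℕ) (x y : ℤ) : (iv P x y).length = (y - x).toNat := by simp [iv]

theorem getElem_sw (P : ℤ → ℕ) (e : ℤ) (n k : ℕ) (h : k < (sw P e n).length) :
    (sw P e n)[k] = P (e - n + k) := by simp [sw]

theorem getElem_iv (P : ℤ → ℕ) (x y : ℤ) (k : ℕ) (h : k < (iv P x y).length) :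
    (iv P x y)[k] = P (x + k) := by
  have h' : k < (y - x).toNat := by simpa using h
  unfold iv
  rw [getElem_sw]
  congr 1
  omega

theorem sw_eq_iv (P : ℤ → ℕ) (e : ℤ) (n : ℕ) : sw P e n = iv P (e - n) e := by
  unfold iv; congr 1; omega

theorem iv_eq_iff (P Q : ℤ → ℕ) (x y : ℤ) :
    iv P x y = iv Q x y ↔ ∀ z, x ≤ z → z < y → P z = Q z := by
  constructor
  · intro h z h1 h2
    have hk : (z - x).toNat < (iv P x y).length := by simp; omega
    have e1 := getElem_iv P x y _ hk
    have e2 := getElem_iv Q x y (z - x).toNat (by simp; omega)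
    have : x + ((z - x).toNat : ℤ) = z := by omega
    rw [this] at e1 e2
    rw [← e1, ← e2]
    simp only [h]
  · intro h
    apply List.ext_getElem (by simp)
    intro k h1 h2
    rw [getElem_iv, getElem_iv]
    have : k < (y - x).toNat := by simpa using h1
    exact h _ (by omega) (by omega)

theorem iv_congr {P Q : ℤ → ℕ} {x y : ℤ} (h : ∀ z, x ≤ z → z < y → P z = Q z) :
    iv P x y = iv Q x y := (iv_eq_iff P Q x y).2 h

theorem iv_append (P : ℤ → ℕ) {x y z : ℤ} (h1 : x ≤ y) (h2 : y ≤ z) :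
    iv P x y ++ iv P y z = iv P x z := by
  apply List.ext_getElem (by simp; omega)
  intro k k1 k2
  rw [getElem_iv, List.getElem_append]
  split_ifs with hk
  · rw [getElem_iv]
  · rw [getElem_iv]
    have : (y - x).toNat ≤ k := by simpa using hk
    congr 1
    simp only [length_iv]
    omega

theorem iv_self (P : ℤ → ℕ) {x y : ℤ} (h : y ≤ x) : iv P x y = [] := by
  apply List.eq_nil_of_length_eq_zero; simp; omega

theorem iv_single (P : ℤ → ℕ) (y : ℤ) : iv P y (y + 1) = [P y] := by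
  apply List.ext_getElem (by simp)
  intro k k1 k2
  rw [getElem_iv]
  have : k = 0 := by simpa using k2
  subst this; simp

theorem iv_succ (P : ℤ → ℕ) {x y : ℤ} (h : x ≤ y) : iv P x (y + 1) = iv P x y ++ [P y] := by
  rw [← iv_append P h (by omega : y ≤ y + 1), iv_single]

theorem iv_dropLast (P : ℤ → ℕ) (x y : ℤ) : (iv P x (y + 1)).dropLast = iv P x y := by
  rcases le_or_gt x y with h | h
  · rw [iv_succ P h]; simp
  · rw [iv_self P (by omega : y + 1 ≤ x), iv_self P h.le]; rfl

theorem iv_getLastD (P : ℤ → ℕ) {x y : ℤ} (h : x ≤ y) : (iv P x (y + 1)).getLastD 0 = P y := by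
  rw [iv_succ P h]; simp

theorem iv_suffix (P : ℤ → ℕ) {x x' : ℤ} (y : ℤ) (h : x' ≤ x) : iv P x y <:+ iv P x' y := by
  rcases le_or_gt x y with h2 | h2
  · exact ⟨iv P x' x, iv_append P h h2⟩
  · rw [iv_self P h2.le]; exact List.nil_suffix

theorem iv_prefix (P : ℤ → ℕ) (x : ℤ) {y y' : ℤ} (h : y ≤ y') : iv P x y <+: iv P x y' := by
  rcases le_or_gt x y with h2 | h2
  · exact ⟨iv P y y', iv_append P h2 h⟩
  · rw [iv_self P h2.le]; exact List.nil_prefix

theorem iv_infix (P : ℤ → ℕ) {x x' y y' : ℤ} (h : x' ≤ x) (h' : y ≤ y') :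
    iv P x y <:+: iv P x' y' :=
  ((iv_suffix P y h).isInfix).trans (iv_prefix P x' h').isInfix

theorem iv_take (P : ℤ → ℕ) {x y z : ℤ} (h1 : x ≤ y) (h2 : y ≤ z) :
    (iv P x z).take (y - x).toNat = iv P x y := by
  rw [← iv_append P h1 h2]
  exact List.take_left' (by simp)

theorem iv_shift (P : ℤ → ℕ) (x y d : ℤ) : iv (fun z => P (z + d)) x y = iv P (x + d) (y + d) := by
  apply List.ext_getElem (by simp)
  intro k k1 k2
  rw [getElem_iv, getElem_iv]
  congr 1; ring

theorem iv_per {P : ℤ → ℕ} {d : ℤ} (h : ∀ z, P (z + d) = P z) (x y : ℤ) :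
    iv P (x + d) (y + d) = iv P x y := by
  rw [← iv_shift]; congr 1; funext z; exact h z

/-- suffix test between two interval words with the same right end -/
theorem iv_suffix_iff (P Q : ℤ → ℕ) {x x' y : ℤ} (h : x ≤ y) (h' : x' ≤ y) :
    iv P x y <:+ iv Q x' y ↔ x' ≤ x ∧ ∀ z, x ≤ z → z < y → Q z = P z := by
  constructor
  · intro hs
    have hl := hs.length_le
    simp only [length_iv] at hl
    have hx : x' ≤ x := by omega
    refine ⟨hx, ?_⟩
    have h2 : iv Q x y <:+ iv Q x' y := iv_suffix Q y hx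
    have := List.suffix_of_suffix_length_le h2 hs (by simp)
    have e := this.eq_of_length (by simp)
    exact (iv_eq_iff Q P x y).1 e
  · rintro ⟨hx, hz⟩
    rw [← iv_congr hz]
    exact iv_suffix Q y hx

theorem dist_iv (hD : DistStmt) (P : ℤ → ℕ) {x y x' y' : ℤ} (h1 : x ≤ x') (h2 : y ≤ y') :
    dist (iv P x y) (iv P x' y') ≤ (y' - y).toNat := by
  rcases le_or_gt x' y with h | h
  · have := hD.le_of_take (iv P x y) (iv P x' y') (y - x').toNat
      (by rw [iv_take P h h2]; exact iv_suffix P y h1)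
    simp only [length_iv] at this
    omega
  · have := hD.le_len (iv P x y) (iv P x' y')
    simp only [length_iv] at this
    omega

theorem per_mul {P : ℤ → ℕ} {d : ℤ} (h : ∀ z, P (z + d) = P z) (n : ℤ) (z : ℤ) :
    P (z + n * d) = P z := by
  have hp : Function.Periodic P d := h
  exact hp.int_mul n z

/-- same period, agreement on one period -/
theorem eq_of_per {P Q : ℤ → ℕ} {c : ℕ} (hc : 0 < c) (hP : ∀ z, P (z + c) = P z)
    (hQ : ∀ z, Q (z + c) = Q z) (X : ℤ) (h : ∀ z, X ≤ z → z < X + c → P z = Q z) : P = Q := by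
  funext z
  have hc' : (0 : ℤ) < c := by exact_mod_cast hc
  have e : z = (X + (z - X) % c) + ((z - X) / c) * c := by
    have := Int.emod_add_ediv_mul (z - X) c
    omega
  have h1 := Int.emod_nonneg (z - X) hc'.ne'
  have h2 := Int.emod_lt_of_pos (z - X) hc'
  rw [e, per_mul hP, per_mul hQ]
  exact h _ (by omega) (by omega)

/-- weak Fine–Wilf -/
theorem fine_wilf {P Q : ℤ → ℕ} {l c : ℕ} (hl : 0 < l) (hc : 0 < c) (hP : ∀ z, P (z + l) = P z)
    (hQ : ∀ z, Q (z + c) = Q z) (X : ℤ) (h : ∀ z, X ≤ z → z < X + l + c → P z = Q z) : P = Q := by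
  have h1 : (fun z => P (z + c)) = P := by
    refine eq_of_per hl (fun z => ?_) hP X (fun z z1 z2 => ?_)
    · show P (z + l + c) = P (z + c)
      rw [show z + l + c = z + c + l by ring, hP]
    · show P (z + c) = P z
      rw [h z z1 (by omega), h (z + c) (by omega) (by omega), hQ]
  exact eq_of_per hc (fun z => congrFun h1 z) hQ X (fun z z1 z2 => h z z1 (by omega))

namespace Sys

variable {I : Type} [Fintype I] (A : Sys I)

theorem tk_succ (j : I) (e y : ℤ) : A.tk j e (y + 1) = A.V (A.σ ((A.σ ^ (y - e)) j)) := by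
  unfold tk
  rw [show y + 1 - e = 1 + (y - e) by ring, zpow_add, zpow_one]
  rfl

theorem tk_chain (j : I) (e y : ℤ) : (A.tk j e (y + 1)).dropLast <:+ A.tk j e y := by
  rw [tk_succ]; exact A.chain _

theorem tk_ne (j : I) (e y : ℤ) : A.tk j e y ≠ [] := A.ne _

theorem tk_self (j : I) (e : ℤ) : A.tk j e e = A.V j := by simp [tk]

theorem lf_lt (j : I) (e y : ℤ) : A.lf j e y < y := by
  have := List.length_pos_iff.2 (A.tk_ne j e y)
  unfold lf; omega

theorem lf_succ_le (j : I) (e y : ℤ) : A.lf j e (y + 1) ≤ y := by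
  have := A.lf_lt j e (y + 1); omega

theorem le_lf (j : I) (e y : ℤ) : y - A.N ≤ A.lf j e y := by
  have : (A.tk j e y).length ≤ A.N := A.len _
  unfold lf; omega

theorem lf_le_succ (j : I) (e y : ℤ) : A.lf j e y ≤ A.lf j e (y + 1) := by
  have := (A.tk_chain j e y).length_le
  have h0 := List.length_pos_iff.2 (A.tk_ne j e (y + 1))
  simp only [List.length_dropLast] at this
  unfold lf; omega

theorem lf_mono (j : I) (e : ℤ) : Monotone (A.lf j e) :=
  monotone_int_of_le_succ (A.lf_le_succ j e)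

theorem suffix_tk (j : I) (e : ℤ) (n : ℕ) : ∀ (y : ℤ) (w : Str), w.length = n → w <:+ A.tk j e y →
    w = iv (A.wd j e) (y - n) y := by
  induction n with
  | zero =>
    intro y w hw _
    rw [List.eq_nil_of_length_eq_zero hw, iv_self _ (by simp)]
  | succ n ih =>
    intro y w hw hs
    have hne : w ≠ [] := by intro h; simp [h] at hw
    obtain ⟨y, rfl⟩ : ∃ y', y = y' + 1 := ⟨y - 1, by ring⟩
    obtain ⟨u, hu⟩ := hs
    have h1 : w.dropLast <:+ (A.tk j e (y + 1)).dropLast := by
      rw [← hu, List.dropLast_append_of_ne_nil hne]; exact List.suffix_append _ _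
    have h2 := ih y w.dropLast (by simp [hw]) (h1.trans (A.tk_chain j e y))
    have h3 : A.wd j e y = w.getLast hne := by
      unfold wd
      rw [← hu, List.getLastD_eq_getLast?, List.getLast?_append, List.getLast?_eq_some_getLast hne]
      rfl
    rw [show y + 1 - ((n + 1 : ℕ) : ℤ) = y - n by push_cast; ring, iv_succ _ (by omega), ← h2, h3,
      List.dropLast_append_getLast]

theorem tk_eq (j : I) (e y : ℤ) : A.tk j e y = iv (A.wd j e) (A.lf j e y) y :=
  A.suffix_tk j e _ y _ rfl (List.suffix_refl _)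

theorem cover_iff (P : ℤ → ℕ) (j : I) (e : ℤ) {x y : ℤ} (h : x ≤ y) :
    iv P x y <:+ A.tk j e y ↔ A.lf j e y ≤ x ∧ ∀ z, x ≤ z → z < y → A.wd j e z = P z := by
  rw [A.tk_eq, iv_suffix_iff _ _ h (A.lf_lt j e y).le]

theorem vert_iv (j : I) (e : ℤ) {x y : ℤ} (h1 : A.lf j e y ≤ x) (h2 : x ≤ A.lf j e (y + 1)) :
    A.Vert ((A.σ ^ (y - e)) j) (iv (A.wd j e) x y) := by
  constructor
  · rw [← tk_succ, A.tk_eq, iv_dropLast]; exact iv_suffix _ _ h2
  · show _ <:+ A.tk j e y
    rw [A.tk_eq]; exact iv_suffix _ _ h1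

theorem tk_shift (j : I) (e y d : ℤ) : A.tk j (e + d) (y + d) = A.tk j e y := by
  unfold tk; rw [show y + d - (e + d) = y - e by ring]

theorem wd_shift (j : I) (e z d : ℤ) : A.wd j (e + d) (z + d) = A.wd j e z := by
  unfold wd; rw [show z + d + 1 = z + 1 + d by ring, tk_shift]

theorem lf_shift (j : I) (e y d : ℤ) : A.lf j (e + d) (y + d) = A.lf j e y + d := by
  unfold lf; rw [tk_shift]; ring

theorem tk_re (j : I) (e r y : ℤ) : A.tk ((A.σ ^ r) j) (e + r) y = A.tk j e y := by
  unfold tk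
  rw [← Equiv.Perm.mul_apply, ← zpow_add, show y - (e + r) + r = y - e by ring]

theorem wd_re (j : I) (e r : ℤ) : A.wd ((A.σ ^ r) j) (e + r) = A.wd j e := by
  funext z; unfold wd; rw [tk_re]

theorem lf_re (j : I) (e r : ℤ) : A.lf ((A.σ ^ r) j) (e + r) = A.lf j e := by
  funext z; unfold lf; rw [tk_re]

theorem tk_per (j : I) (e y : ℤ) : A.tk j e (y + A.c j) = A.tk j e y := by
  unfold tk
  rw [show y + A.c j - e = (y - e) + A.c j by ring, zpow_add, Equiv.Perm.mul_apply, zpow_natCast,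
    A.cper]

theorem wd_per (j : I) (e z : ℤ) : A.wd j e (z + A.c j) = A.wd j e z := by
  unfold wd; rw [show z + A.c j + 1 = z + 1 + A.c j by ring, tk_per]

theorem lf_per (j : I) (e y : ℤ) : A.lf j e (y + A.c j) = A.lf j e y + A.c j := by
  unfold lf; rw [tk_per]; ring

theorem inv_zpow {β : Type} (f : I → β) (hf : ∀ i, f (A.σ i) = f i) (r : ℤ) (j : I) :
    f ((A.σ ^ r) j) = f j := by
  induction r using Int.induction_on with
  | zero => simp
  | succ n ih =>
    rw [show (n : ℤ) + 1 = 1 + n by ring, zpow_add, zpow_one, Equiv.Perm.mul_apply, hf, ih]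
  | pred n ih =>
    rw [← ih, ← hf ((A.σ ^ (-(n : ℤ) - 1)) j), ← Equiv.Perm.mul_apply, ← zpow_one_add]
    congr 3; ring

theorem c_zpow (r : ℤ) (j : I) : A.c ((A.σ ^ r) j) = A.c j := A.inv_zpow A.c A.cinv r j

theorem rt_zpow (r : ℤ) (j : I) : A.rt ((A.σ ^ r) j) ↔ A.rt j :=
  iff_of_eq (A.inv_zpow A.rt (fun i => propext (A.rinv i)) r j)

end Sys

end Crest.Agent.R287
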