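import Crest.Agent.R287.Core1

/-! Row 287: the abstract core, part 2. -/

set_option autoImplicit false

namespace Crest.Agent.R287

namespace Core

variable {I : Type} [Fintype I] (A : Sys I)

/-- an unrooted raw vertex together with the right end of its run -/
def Gd (P : ℤ → ℕ) (j : I) (e x y Y : ℤ) : Prop :=
  ¬ A.rt j ∧ Vx A j e x y ∧ y ≤ Y ∧ (∀ z, x ≤ z → z < Y → A.wd j e z = P z) ∧ A.wd j e Y ≠ P Y

/-- below the lowest member of `U` at `y` there is a good vertex -/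
theorem good (hD : DistStmt) (hA : AcovStmt) (hM : ¬ A.Move) {P : ℤ → ℕ} {l : ℕ} (hl : 0 < l)
    (hP : ∀ z, P (z + l) = P z) {j : I} {e y : ℤ} (hU : InU A P j e) (hlc : l ≤ A.c j)
    (hmax : ∀ j' e', InU A P j' e' → A.lf j' e' y ≤ A.lf j e y) :
    ∃ j' e' x' y' Y, Gd A P j' e' x' y' Y ∧ x' ≤ A.lf j e y ∧ y - l ≤ y' := by
  set x := A.lf j e y with hx
  have hhi := high A hM hU.1 (vx_tok A j e y)
  have ee : e + (y - e) = y := by ring
  obtain ⟨k, k1, k2, k3, k4⟩ := hA I A P l x y ((A.σ ^ (y - e)) j) hl hP (by omega)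
    (by have := A.wd_re j e (y - e); rw [ee] at this; rw [this, hU.2.1])
    (by have := A.lf_re j e (y - e); rw [ee] at this; rw [this])
  have hraw : ∃ j' e' x' y', Raw A P j' e' x' y' ∧ x' ≤ x ∧ y - l ≤ y' := by
    by_cases hw : A.wd k (y - l) = P
    · have hlt : x < A.lf k (y - l) y := by
        by_contra h
        exact k3 ⟨by omega, fun z _ _ => by rw [hw]⟩
      by_cases hr : A.rt k
      · exfalso
        obtain ⟨y', a1, a2, a3, a4⟩ := ivt' (f := A.lf k (y - l)) (v := x)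
          (show y - l ≤ y - 1 by omega) k1 (by simpa using hlt.le)
        refine hM (Or.inr (Or.inl ⟨(A.σ ^ (y - e)) j, (A.σ ^ (y' - (y - l))) k, iv P x y, iv P x y',
          by rw [A.rt_zpow]; exact hU.1, by rwa [A.rt_zpow],
          vx_vert A (vx_tok A j e y) (fun z _ _ => by rw [hU.2.1]),
          vx_vert A ⟨a3, a4⟩ (fun z _ _ => by rw [hw]), ?_⟩))
        have d1 := dist_iv hD P (le_refl x) (show y' ≤ y by omega)
        have d2 := dist_iv hD P (show x ≤ x + l by omega) (show y ≤ y' + l by omega)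
        rw [iv_per hP] at d2
        rw [A.c_zpow]
        omega
      · have hdom : Dom A P k (y - l) := by
          by_contra h
          have := hmax k (y - l) ⟨hr, hw, h⟩
          omega
        obtain ⟨j', e', x', y', y₁, hR, b1, b2⟩ := hdom
        obtain ⟨n, n1, n2⟩ := exists_shift (A.cpos k) (y - l) y₁
        have hPc : ∀ z, P (z + A.c k) = P z := by rw [← hw]; exact A.wd_per k _
        have hPn : ∀ z, P (z + (-n) * A.c k) = P z := per_mul hPc (-n)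
        have m1 := A.lf_mono k (y - l) (show y₁ + 1 ≤ y - l + n * A.c k by omega)
        rw [lf_mul] at m1
        refine ⟨j', _, _, _, raw_shift A hPn hR, ?_, ?_⟩
        · rw [neg_mul]; omega
        · rw [neg_mul]; omega
    · obtain ⟨X, x1, x2, x3⟩ := left_end hl (A.cpos k) hP (A.wd_per k (y - l)) hw x
      obtain ⟨Y, y1, y2, y3⟩ := right_end hl (A.cpos k) hP (A.wd_per k (y - l)) hw (y - l)
      have hag : ∀ z, X ≤ z → z < Y → A.wd k (y - l) z = P z := by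
        intro z z1 z2
        rcases lt_or_ge z x with h | h
        · exact x3 z z1 h
        · rcases lt_or_ge z (y - l) with h' | h'
          · exact k2 z h h'
          · exact y3 z h' z2
      have hX := k4 X Y x1 y1 hag x2 y2
      have m1 := A.lf_mono k (y - l) (show y - l ≤ Y + 1 by omega)
      obtain ⟨y', a1, a2, a3, a4⟩ := ivt' (f := A.lf k (y - l)) (v := min x (A.lf k (y - l) (Y + 1)))
        y1 (by omega) (min_le_right _ _)
      exact ⟨k, y - l, _, y', ⟨hw, ⟨a3, a4⟩, fun z z1 z2 => hag z (by omega) (by omega)⟩,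
        min_le_left _ _, a1⟩
  obtain ⟨j', e', x', y', hR, r1, r2⟩ := hraw
  have hnr := raw_not_rt A hD hM hU hR r1 (show y - A.c j ≤ y' by omega)
  obtain ⟨Y, y1, y2, y3⟩ := right_end hl (A.cpos j') hP (A.wd_per j' e') hR.1 y'
  refine ⟨j', e', x', y', Y, ⟨hnr, hR.2.1, y1, fun z z1 z2 => ?_, y2⟩, r1, r2⟩
  rcases lt_or_ge z y' with h | h
  · exact hR.2.2 z z1 h
  · exact y3 z h z2

theorem gd_len {P : ℤ → ℕ} {l : ℕ} (hl : 0 < l) (hP : ∀ z, P (z + l) = P z) {j : I} {e x y Y : ℤ}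
    (h : Gd A P j e x y Y) : Y < x + l + A.c j := by
  by_contra hh
  apply h.2.2.2.2
  rw [fine_wilf hl (A.cpos j) hP (A.wd_per j e) x (fun z z1 z2 => (h.2.2.2.1 z z1 (by omega)).symm)]

theorem same_c {i j : I} (h : A.σ.SameCycle i j) : A.c i = A.c j := by
  obtain ⟨r, rfl⟩ := h; rw [A.c_zpow]

theorem same_red {i j : I} {a b : ℤ} (h : A.σ.SameCycle ((A.σ ^ a) i) ((A.σ ^ b) j)) :
    A.σ.SameCycle i j := by
  simpa using h

theorem gd_not_same (hM : ¬ A.Move) {P : ℤ → ℕ} {l : ℕ} (hl : 0 < l) (hP : ∀ z, P (z + l) = P z)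
    {j j' : I} {e e' x y Y : ℤ} (hU : InU A P j e) (hlc : l ≤ A.c j) (h : Gd A P j' e' x y Y) :
    ¬ A.σ.SameCycle j j' := by
  intro hs
  have hc := same_c A hs
  obtain ⟨r, rfl⟩ := hs
  have hhi := high A hM h.1 h.2.1
  have e1 : A.wd ((A.σ ^ r) j) e' = A.wd j (e' - r) := by
    have := A.wd_re j (e' - r) r
    rwa [sub_add_cancel] at this
  have e2 : ∀ z, A.wd j (e' - r) z = P (z - (e' - r - e)) := by
    intro z
    have := A.wd_shift j e (z - (e' - r - e)) (e' - r - e)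
    rw [hU.2.1] at this
    rw [← this]; congr 1 <;> ring
  apply h.2.2.2.2
  have hY := h.2.2.1
  rw [eq_of_per hl (P := A.wd ((A.σ ^ r) j) e') (Q := P) (fun z => by
    rw [e1, e2, e2, show z + l - (e' - r - e) = z - (e' - r - e) + l by ring, hP]) hP x
    (fun z z1 z2 => h.2.2.2.1 z z1 (by omega))]

end Core

open Core in
theorem CORE_proof (hD : DistStmt) (hA : AcovStmt) : CoreStmt := by
  classical
  intro I _ A i₀ h0 hmax
  by_contra hM
  set P := A.wd i₀ 0 with hPdef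
  have hU0 : InU A P i₀ 0 := start_inU A h0 hmax
  have hex : ∃ n, ∃ j e, InU A P j e ∧ A.c j = n := ⟨_, i₀, 0, hU0, rfl⟩
  obtain ⟨jl, el, hUl, hcl⟩ := Nat.find_spec hex
  set l := Nat.find hex with hldef
  have hl : 0 < l := by rw [← hcl]; exact A.cpos jl
  have hP : ∀ z, P (z + l) = P z := by
    intro z; rw [← hcl, ← hUl.2.1]; exact A.wd_per jl el z
  have hlc : ∀ j e, InU A P j e → l ≤ A.c j := fun j e h => Nat.find_min' hex ⟨j, e, h, rfl⟩
  have htop : ∀ y, ∃ j e, InU A P j e ∧ ∀ j' e', InU A P j' e' → A.lf j' e' y ≤ A.lf j e y := by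
    intro y
    obtain ⟨v, ⟨j, e, h1, h2⟩, h3⟩ := Int.exists_greatest_of_bdd
      (P := fun v => ∃ j e, InU A P j e ∧ A.lf j e y = v)
      ⟨y, by rintro v ⟨j, e, _, rfl⟩; exact (A.lf_lt j e y).le⟩ ⟨_, i₀, 0, hU0, rfl⟩
    exact ⟨j, e, h1, fun j' e' h => by rw [h2]; exact h3 _ ⟨j', e', h, rfl⟩⟩
  obtain ⟨d, ⟨j₁, e₁, x₁, y₁, Y₁, G₁, hd⟩, hdm⟩ := Int.exists_greatest_of_bdd
    (P := fun d => ∃ j e x y Y, Gd A P j e x y Y ∧ Y - x = d)
    ⟨l + ((∑ i, A.c i : ℕ) : ℤ), by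
      rintro v ⟨j, e, x, y, Y, G, rfl⟩
      have h1 := gd_len A hl hP G
      have h2 : A.c j ≤ ∑ i, A.c i :=
        Finset.single_le_sum (f := A.c) (fun _ _ => Nat.zero_le _) (Finset.mem_univ j)
      omega⟩
    (by
      obtain ⟨j, e, h1, h2⟩ := htop 0
      obtain ⟨j', e', x', y', Y, G, _⟩ := good A hD hA hM hl hP h1 (hlc j e h1) h2
      exact ⟨_, j', e', x', y', Y, G, rfl⟩)
  obtain ⟨j, e, hU, hm⟩ := htop (Y₁ + 1)
  have hcj := hlc j e hU
  set x := A.lf j e (Y₁ + 1) with hx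
  set u := A.lf j₁ e₁ (Y₁ + 1) with hu
  have hu1 : x₁ ≤ u := G₁.2.1.2.trans (A.lf_mono j₁ e₁ (by have := G₁.2.2.1; omega))
  have hu2 : u ≤ Y₁ := A.lf_succ_le _ _ _
  have hx2 : x ≤ Y₁ := A.lf_succ_le _ _ _
  have vw : A.Vert ((A.σ ^ (Y₁ - e)) j) (iv P x Y₁) :=
    vx_vert A (vx_low A j e Y₁) (fun z _ _ => by rw [hU.2.1])
  have vu : A.Vert ((A.σ ^ (Y₁ - e₁)) j₁) (iv P u Y₁) :=
    vx_vert A (vx_low A j₁ e₁ Y₁) (fun z z1 z2 => G₁.2.2.2.1 z (by omega) z2)
  have r0 : ¬ A.rt ((A.σ ^ (Y₁ - e)) j) := by rw [A.rt_zpow]; exact hU.1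
  have r1 : ¬ A.rt ((A.σ ^ (Y₁ - e₁)) j₁) := by rw [A.rt_zpow]; exact G₁.1
  have s01 : ¬ A.σ.SameCycle j j₁ := gd_not_same A hM hl hP hU hcj G₁
  have L₁ := gd_len A hl hP G₁
  have two : Y₁ - x ≤ A.c j + A.c j₁ → x ≤ u → False := fun h1 h2 =>
    hM (Or.inr (Or.inr (Or.inl ⟨_, _, _, _, r0, r1, fun h => s01 (same_red A h), vw, vu, by
      rw [hD.suf _ _ (iv_suffix P Y₁ h2), A.c_zpow, A.c_zpow, length_iv]; omega⟩)))
  rcases le_or_gt x₁ x with hc | hc
  · rcases le_or_gt x u with h | h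
    · exact two (by omega) h
    · exact hM (Or.inr (Or.inr (Or.inl ⟨_, _, _, _, r1, r0, fun h => s01 (same_red A h).symm, vu, vw,
        by rw [hD.suf _ _ (iv_suffix P Y₁ h.le), A.c_zpow, A.c_zpow, length_iv]; omega⟩)))
  · obtain ⟨j₂, e₂, x₂, y₂, Y₂, G₂, g1, g2⟩ := good A hD hA hM hl hP hU hcj hm
    have hle := hdm _ ⟨j₂, e₂, x₂, y₂, Y₂, G₂, rfl⟩
    have hy₂ := G₂.2.2.1
    have s02 : ¬ A.σ.SameCycle j j₂ := gd_not_same A hM hl hP hU hcj G₂
    have hQ : ∀ z, (fun z => A.wd j₂ e₂ (z - l)) (z + A.c j₂) = (fun z => A.wd j₂ e₂ (z - l)) z := by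
      intro z
      show A.wd j₂ e₂ (z + A.c j₂ - l) = _
      rw [show z + A.c j₂ - l = z - l + A.c j₂ by ring, A.wd_per]
    have hP' : ∀ z, P (z - l) = P z := fun z => by rw [← hP (z - l), sub_add_cancel]
    have hag : ∀ z, x₂ + l ≤ z → z < Y₁ → A.wd j₁ e₁ z = (fun z => A.wd j₂ e₂ (z - l)) z := by
      intro z z1 z2
      show _ = A.wd j₂ e₂ (z - l)
      rw [G₁.2.2.2.1 z (by omega) z2, G₂.2.2.2.1 _ (by omega) (by omega), hP']
    have hne : x₂ + l ≤ Y₁ → A.wd j₁ e₁ ≠ fun z => A.wd j₂ e₂ (z - l) := by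
      intro h1 h2
      apply G₁.2.2.2.2
      rw [h2]
      show A.wd j₂ e₂ (Y₁ - l) = _
      rw [G₂.2.2.2.1 _ (by omega) (by omega), hP']
    by_cases s12 : A.σ.SameCycle j₁ j₂
    · have hc12 := same_c A s12
      refine two ?_ (by omega)
      by_contra hh
      refine hne (by omega) (eq_of_per (A.cpos j₁) (A.wd_per j₁ e₁) (by rw [hc12]; exact hQ) (x₂ + l)
        (fun z z1 z2 => hag z z1 (by omega)))
    · have hO : Y₁ < x₂ + l + A.c j₁ + A.c j₂ := by
        by_contra hh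
        exact hne (by omega) (fine_wilf (A.cpos j₁) (A.cpos j₂) (A.wd_per j₁ e₁) hQ (x₂ + l)
          (fun z z1 z2 => hag z z1 (by omega)))
      have v2 : A.Vert ((A.σ ^ (y₂ - e₂)) j₂) (iv P x₂ y₂) :=
        vx_vert A G₂.2.1 (fun z z1 z2 => G₂.2.2.2.1 z z1 (by omega))
      have hhi := high A hM G₂.1 G₂.2.1
      have d1 := dist_iv hD P (show x₂ ≤ x from g1) (show y₂ ≤ Y₁ by omega)
      refine hM (Or.inr (Or.inr (Or.inr ⟨_, _, _, _, _, _, by rw [A.rt_zpow]; exact G₂.1, r0, r1,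
        fun h => s02 (same_red A h).symm, fun h => s12 (same_red A h).symm,
        fun h => s01 (same_red A h), v2, vw, vu, ?_⟩)))
      rw [hD.suf _ _ (iv_suffix P Y₁ (show x ≤ u by omega)), A.c_zpow, A.c_zpow, A.c_zpow, length_iv]
      omega

end Crest.Agent.R287
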