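import Crest.Agent.R287.Stmts

/-! Row 287, task CYC. -/

set_option autoImplicit false

namespace Crest.Agent.R287

namespace CYC

/-- the chain relation -/
def Rl (a b : Str) : Prop := b.dropLast <:+ a

/-- left count -/
def lc (O : List (List Str)) (w : Str) : ℕ := O.countP fun C => decide (w <:+ (C.headD []).dropLast)

/-- right count -/
def rc (O : List (List Str)) (w : Str) : ℕ := O.countP fun C => decide (w <:+ C.getLastD [])

structure Inv (Vs : List Str) (st : List (List Str) × List (List Str)) : Prop where
  ch : ∀ C ∈ st.1, C ≠ [] ∧ List.IsChain Rl C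
  srt : st.1.Pairwise fun C D => (D.headD []).length ≤ (C.headD []).length
  cy : ∀ Z ∈ st.2, Cyc Z
  pm : (st.1.flatten ++ st.2.flatten).Perm Vs
  ct : ∀ w, lc st.1 w ≤ rc st.1 w

theorem anchor : True := by
  have := @Rl.eq_1
  have := @lc.eq_1
  have := @rc.eq_1
  trivial

theorem cyc_of (C : List Str) (h0 : C ≠ []) (h1 : List.IsChain Rl C)
    (h2 : (C.headD []).dropLast <:+ C.getLastD []) : Cyc C := by
  refine ⟨h0, fun p hp => ?_⟩
  rcases Nat.lt_or_ge (p + 1) C.length with h | h
  · rw [Nat.mod_eq_of_lt h, List.getD_eq_getElem _ _ h, List.getD_eq_getElem _ _ hp]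
    exact (List.isChain_iff_getElem.1 h1) p h
  · have e : p + 1 = C.length := by omega
    rw [e, Nat.mod_self]
    have e1 : C.getD 0 [] = C.headD [] := by cases C <;> simp
    have e2 : C.getD p [] = C.getLastD [] := by
      rw [List.getLastD_eq_getLast?, List.getLast?_eq_getElem?, List.getD_eq_getElem?_getD]
      congr 2; omega
    rw [e1, e2]; exact h2

theorem lc_zero (O : List (List Str)) (w : Str) (n : ℕ) (h : ∀ D ∈ O, (D.headD []).length ≤ n)
    (hw : n - 1 < w.length) : lc O w = 0 := by
  unfold lc
  rw [List.countP_eq_zero]
  intro D hD hs
  have h1 := (of_decide_eq_true hs).length_le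
  have h2 := h D hD
  simp only [List.length_dropLast] at h1
  omega

/-- the counting step: `v` is the last token that gets covered -/
theorem count_step (C : List Str) (O : List (List Str)) (v w : Str) (r : ℕ)
    (hs : ∀ D ∈ O, (D.headD []).length ≤ (C.headD []).length)
    (hv : (C.headD []).dropLast <:+ v)
    (h : lc (C :: O) w ≤ r + if w <:+ v then 1 else 0) : lc O w ≤ r := by
  have e : lc (C :: O) w = lc O w + if w <:+ (C.headD []).dropLast then 1 else 0 := by
    unfold lc
    rw [List.countP_cons]
    simp
  rw [e] at h
  by_cases h1 : w <:+ (C.headD []).dropLast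
  · rw [if_pos h1] at h
    split_ifs at h <;> omega
  · rw [if_neg h1] at h
    by_cases h2 : w <:+ v
    · have : (C.headD []).length - 1 < w.length := by
        by_contra hc
        apply h1
        refine List.suffix_of_suffix_length_le h2 hv ?_
        simp only [List.length_dropLast]
        omega
      rw [lc_zero O w _ hs this]
      omega
    · rw [if_neg h2] at h
      omega

theorem rc_cons (C : List Str) (O : List (List Str)) (w : Str) :
    rc (C :: O) w = rc O w + if w <:+ C.getLastD [] then 1 else 0 := by
  unfold rc
  rw [List.countP_cons]
  simp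

theorem rc_append (O O' : List (List Str)) (w : Str) : rc (O ++ O') w = rc O w + rc O' w := by
  unfold rc
  rw [List.countP_append]

theorem split_findIdx {α : Type} (p : α → Bool) (d : α) (f : α → α) (O : List α)
    (h : ∃ D ∈ O, p D = true) :
    ∃ A D B, O = A ++ D :: B ∧ p D = true ∧
      O.set (O.findIdx p) (f (O.getD (O.findIdx p) d)) = A ++ f D :: B := by
  induction O with
  | nil => simp at h
  | cons a O ih =>
    by_cases ha : p a = true
    · refine ⟨[], a, O, rfl, ha, ?_⟩
      simp [List.findIdx_cons, ha]
    · obtain ⟨D, hD, hp⟩ := h
      have hD' : D ∈ O := by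
        rcases List.mem_cons.1 hD with rfl | h'
        · exact absurd hp ha
        · exact h'
      obtain ⟨A, D, B, e1, e2, e3⟩ := ih ⟨D, hD', hp⟩
      refine ⟨a :: A, D, B, by rw [e1]; rfl, e2, ?_⟩
      have : (a :: O).findIdx p = O.findIdx p + 1 := by
        simp [List.findIdx_cons, ha]
      rw [this, List.set_cons_succ, List.getD_cons_succ, e3]
      rfl

theorem step (Vs : List Str) (st : List (List Str) × List (List Str)) (h : Inv Vs st) :
    Inv Vs (step2 st) ∧ (step2 st).1.length = st.1.length - 1 := by
  obtain ⟨O, Cl⟩ := st
  obtain ⟨ch, srt, cy, pm, ct⟩ := h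
  simp only at ch srt cy pm ct
  cases O with
  | nil =>
    have : step2 ([], Cl) = ([], Cl) := by simp [step2]
    rw [this]
    exact ⟨⟨ch, srt, cy, pm, ct⟩, rfl⟩
  | cons C O =>
    have hC := ch C (by simp)
    rw [List.pairwise_cons] at srt
    by_cases h1 : (C.headD []).dropLast <:+ C.getLastD []
    · have : step2 (C :: O, Cl) = (O, C :: Cl) := by
        unfold step2
        rw [if_neg (by simp), if_pos (by simpa using h1)]
        rfl
      rw [this]
      refine ⟨⟨fun D hD => ch D (List.mem_cons_of_mem _ hD), srt.2, ?_, ?_, ?_⟩, by simp⟩
      · intro Z hZ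
        rcases List.mem_cons.1 hZ with rfl | hZ
        · exact cyc_of _ hC.1 hC.2 h1
        · exact cy Z hZ
      · refine List.Perm.trans ?_ pm
        simp only [List.flatten_cons, ← List.append_assoc]
        exact List.Perm.append_right _ List.perm_append_comm
      · intro w
        refine count_step C O (C.getLastD []) w _ srt.1 h1 ?_
        rw [← rc_cons]
        exact ct w
    · have hex : ∃ D ∈ O, decide ((C.headD []).dropLast <:+ D.getLastD []) = true := by
        have h2 := ct (C.headD []).dropLast
        have h3 : 0 < lc (C :: O) (C.headD []).dropLast := by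
          unfold lc
          rw [List.countP_pos_iff]
          exact ⟨C, by simp, by simp⟩
        rw [rc_cons, if_neg h1] at h2
        have h4 : 0 < rc O (C.headD []).dropLast := by omega
        unfold rc at h4
        rwa [List.countP_pos_iff] at h4
      obtain ⟨A, D, B, e1, e2, e3⟩ := split_findIdx
        (fun D : List Str => decide ((C.headD []).dropLast <:+ D.getLastD [])) [] (fun D => D ++ C) O hex
      have e2' := of_decide_eq_true e2
      have : step2 (C :: O, Cl) = (A ++ (D ++ C) :: B, Cl) := by
        unfold step2
        rw [if_neg (by simp), if_neg (by simpa using h1), ← e3]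
        rfl
      rw [this]
      subst e1
      have hD := ch D (by simp)
      have hhead : (D ++ C).headD [] = D.headD [] := by
        obtain ⟨d, D', rfl⟩ := List.exists_cons_of_ne_nil hD.1
        rfl
      have hlast : (D ++ C).getLastD [] = C.getLastD [] := by
        rw [List.getLastD_eq_getLast?, List.getLastD_eq_getLast?,
          List.getLast?_append_of_ne_nil _ hC.1]
      refine ⟨⟨?_, ?_, cy, ?_, ?_⟩, by simp⟩
      · intro E hE
        simp only [List.mem_append, List.mem_cons] at hE
        rcases hE with hE | rfl | hE
        · exact ch E (by simp [hE])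
        · refine ⟨by simp [hD.1], ?_⟩
          rw [List.isChain_append]
          refine ⟨hD.2, hC.2, ?_⟩
          intro x hx y hy
          have a1 : D.getLastD [] = x := by
            rw [List.getLastD_eq_getLast?, Option.mem_def.1 hx]; rfl
          have a2 : C.headD [] = y := by
            rw [List.headD_eq_head?_getD, Option.mem_def.1 hy]; rfl
          rw [a1, a2] at e2'
          exact e2'
        · exact ch E (by simp [hE])
      · have := srt.2
        simp only [List.pairwise_append, List.pairwise_cons, List.mem_cons, forall_eq_or_imp]
          at this ⊢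
        rw [hhead]
        exact this
      · refine List.Perm.trans ?_ pm
        refine List.Perm.append_right _ ?_
        simp only [List.flatten_cons, List.flatten_append]
        rw [List.perm_iff_count]
        intro a
        simp only [List.count_append]
        omega
      · intro w
        have a1 : lc (A ++ (D ++ C) :: B) w = lc (A ++ D :: B) w := by
          unfold lc
          simp only [List.countP_append, List.countP_cons, hhead]
        simp only
        rw [a1]
        refine count_step C _ (D.getLastD []) w _ srt.1 e2' ?_
        refine (ct w).trans (le_of_eq ?_)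
        simp only [rc_cons, rc_append, hlast]
        omega

theorem iter (Vs : List Str) (n : ℕ) (st : List (List Str) × List (List Str)) (h : Inv Vs st) :
    Inv Vs (step2^[n] st) ∧ (step2^[n] st).1.length = st.1.length - n := by
  induction n with
  | zero => exact ⟨h, rfl⟩
  | succ n ih =>
    rw [Function.iterate_succ_apply']
    have := step Vs _ ih.1
    exact ⟨this.1, by rw [this.2, ih.2]; omega⟩

end CYC

theorem CYC_proof : CycStmt := by
  intro Vs hne hs hc
  clear hne
  have h0 : CYC.Inv Vs (Vs.map fun V => [V], []) := by
    refine ⟨?_, ?_, by simp, ?_, ?_⟩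
    · intro C hC
      obtain ⟨V, _, rfl⟩ := List.mem_map.1 hC
      simp
    · simp only [List.pairwise_map]
      exact hs
    · have : (Vs.map fun V => [V]).flatten = Vs := by
        clear hs hc
        induction Vs with
        | nil => rfl
        | cons a l ih => simp [ih]
      simp [this]
    · intro w
      have := hc w
      unfold cntD cnt at this
      unfold CYC.lc CYC.rc
      simp only [List.countP_map]
      exact this
  obtain ⟨h1, h2⟩ := CYC.iter Vs Vs.length _ h0
  have h3 : (step2^[Vs.length] (Vs.map fun V => [V], [])).1 = [] := by
    apply List.eq_nil_of_length_eq_zero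
    rw [h2]; simp
  refine ⟨?_, h1.cy⟩
  have := h1.pm
  rw [h3] at this
  simpa [cycles] using this

end Crest.Agent.R287
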