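import Crest.Agent.R287.Bas

/-! Row 287: the abstract core, part 1 (bands, domination, raw covers). -/

set_option autoImplicit false

namespace Crest.Agent.R287

namespace Core

theorem ivt {f : ℤ → ℤ} {v : ℤ} (a : ℤ) (n : ℕ) (h1 : f a ≤ v) (h2 : v ≤ f (a + n + 1)) :
    ∃ y, a ≤ y ∧ y ≤ a + n ∧ f y ≤ v ∧ v ≤ f (y + 1) := by
  induction n with
  | zero => exact ⟨a, le_rfl, by simp, h1, by simpa using h2⟩
  | succ n ih =>
    rcases le_or_gt v (f (a + n + 1)) with h | h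
    · obtain ⟨y, y1, y2, y3⟩ := ih h
      exact ⟨y, y1, by push_cast; omega, y3⟩
    · refine ⟨a + n + 1, by omega, by push_cast; omega, h.le, ?_⟩
      have e : a + ((n + 1 : ℕ) : ℤ) + 1 = a + n + 1 + 1 := by push_cast; ring
      rwa [e] at h2

theorem ivt' {f : ℤ → ℤ} {v a b : ℤ} (hab : a ≤ b) (h1 : f a ≤ v) (h2 : v ≤ f (b + 1)) :
    ∃ y, a ≤ y ∧ y ≤ b ∧ f y ≤ v ∧ v ≤ f (y + 1) := by
  have e : a + ((b - a).toNat : ℤ) = b := by omega
  have := ivt (f := f) (v := v) a (b - a).toNat h1 (by rw [e]; exact h2)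
  rwa [e] at this

/-- first mismatch to the right -/
theorem right_end {P Q : ℤ → ℕ} {l c : ℕ} (hl : 0 < l) (hc : 0 < c) (hP : ∀ z, P (z + l) = P z)
    (hQ : ∀ z, Q (z + c) = Q z) (hne : Q ≠ P) (a : ℤ) :
    ∃ Y, a ≤ Y ∧ Q Y ≠ P Y ∧ ∀ z, a ≤ z → z < Y → Q z = P z := by
  have hex : ∃ z, a ≤ z ∧ Q z ≠ P z := by
    by_contra h
    push Not at h
    exact hne (fine_wilf hl hc hP hQ a (fun z z1 _ => (h z z1).symm)).symm
  obtain ⟨Y, ⟨h1, h2⟩, h3⟩ := Int.exists_least_of_bdd (P := fun z => a ≤ z ∧ Q z ≠ P z)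
    ⟨a, fun z hz => hz.1⟩ hex
  refine ⟨Y, h1, h2, fun z z1 z2 => ?_⟩
  by_contra h
  have := h3 z ⟨z1, h⟩
  omega

/-- first mismatch to the left -/
theorem left_end {P Q : ℤ → ℕ} {l c : ℕ} (hl : 0 < l) (hc : 0 < c) (hP : ∀ z, P (z + l) = P z)
    (hQ : ∀ z, Q (z + c) = Q z) (hne : Q ≠ P) (a : ℤ) :
    ∃ X, X ≤ a ∧ Q (X - 1) ≠ P (X - 1) ∧ ∀ z, X ≤ z → z < a → Q z = P z := by
  have hex : ∃ z, z < a ∧ Q z ≠ P z := by
    by_contra h
    push Not at h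
    exact hne (fine_wilf hl hc hP hQ (a - l - c) (fun z _ z2 => (h z (by omega)).symm)).symm
  obtain ⟨Y, ⟨h1, h2⟩, h3⟩ := Int.exists_greatest_of_bdd (P := fun z => z < a ∧ Q z ≠ P z)
    ⟨a, fun z hz => hz.1.le⟩ hex
  refine ⟨Y + 1, by omega, by simpa using h2, fun z z1 z2 => ?_⟩
  by_contra h
  have := h3 z ⟨z2, h⟩
  omega

variable {I : Type} [Fintype I] (A : Sys I)

/-- `[x,y)` is a vertex of the staircase `(j,e)` -/
def Vx (j : I) (e x y : ℤ) : Prop := A.lf j e y ≤ x ∧ x ≤ A.lf j e (y + 1)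

/-- a vertex of a staircase with another word, agreeing with `P` -/
def Raw (P : ℤ → ℕ) (j : I) (e x y : ℤ) : Prop :=
  A.wd j e ≠ P ∧ Vx A j e x y ∧ ∀ z, x ≤ z → z < y → A.wd j e z = P z

def Dom (P : ℤ → ℕ) (j : I) (e : ℤ) : Prop :=
  ∃ j' e' x' y' y₁, Raw A P j' e' x' y' ∧ x' ≤ A.lf j e (y₁ + 1) ∧ y₁ + A.c j < y'

def InU (P : ℤ → ℕ) (j : I) (e : ℤ) : Prop := ¬ A.rt j ∧ A.wd j e = P ∧ ¬ Dom A P j e

theorem vx_vert {P : ℤ → ℕ} {j : I} {e x y : ℤ} (h : Vx A j e x y)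
    (hz : ∀ z, x ≤ z → z < y → A.wd j e z = P z) : A.Vert ((A.σ ^ (y - e)) j) (iv P x y) := by
  rw [← iv_congr hz]; exact A.vert_iv j e h.1 h.2

theorem vx_tok (j : I) (e y : ℤ) : Vx A j e (A.lf j e y) y := ⟨le_rfl, A.lf_le_succ j e y⟩

theorem vx_low (j : I) (e y : ℤ) : Vx A j e (A.lf j e (y + 1)) y := ⟨A.lf_le_succ j e y, le_rfl⟩

theorem high (hM : ¬ A.Move) {j : I} {e x y : ℤ} (hr : ¬ A.rt j) (h : Vx A j e x y) :
    x + A.c j < y := by
  by_contra hh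
  refine hM (Or.inl ⟨(A.σ ^ (y - e)) j, iv (A.wd j e) x y, ?_, A.vert_iv j e h.1 h.2, ?_⟩)
  · rwa [A.rt_zpow]
  · rw [A.c_zpow, length_iv]; omega

theorem raw_shift {P : ℤ → ℕ} {d : ℤ} (hP : ∀ z, P (z + d) = P z) {j : I} {e x y : ℤ}
    (h : Raw A P j e x y) : Raw A P j (e + d) (x + d) (y + d) := by
  obtain ⟨h1, ⟨h2, h3⟩, h4⟩ := h
  refine ⟨fun h => h1 ?_, ⟨?_, ?_⟩, fun z z1 z2 => ?_⟩
  · funext z; rw [← A.wd_shift j e z d, h, hP]
  · rw [A.lf_shift]; omega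
  · rw [show y + d + 1 = y + 1 + d by ring, A.lf_shift]; omega
  · have := h4 (z - d) (by omega) (by omega)
    rw [← A.wd_shift j e (z - d) d, ← hP (z - d)] at this
    simpa using this

theorem lf_mul (j : I) (e y n : ℤ) : A.lf j e (y + n * A.c j) = A.lf j e y + n * A.c j := by
  have hp : Function.Periodic (fun y => A.lf j e y - y) (A.c j : ℤ) := by
    intro y; simp only [A.lf_per]; ring
  have := hp.int_mul n y
  simp only [Int.cast_id] at this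
  omega

theorem exists_shift {c : ℕ} (hc : 0 < c) (y a : ℤ) : ∃ n : ℤ, a < y + n * c ∧ y + n * c ≤ a + c := by
  have hc' : (0 : ℤ) < c := by exact_mod_cast hc
  refine ⟨(a - y) / c + 1, ?_, ?_⟩
  · have := Int.emod_add_ediv_mul (a - y) c
    have := Int.emod_lt_of_pos (a - y) hc'
    rw [add_mul]; omega
  · have := Int.emod_add_ediv_mul (a - y) c
    have := Int.emod_nonneg (a - y) hc'.ne'
    rw [add_mul]; omega

/-- the start token is not dominated -/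
theorem start_inU {i₀ : I} (h0 : ¬ A.rt i₀)
    (hmax : ∀ j, A.V i₀ <:+: A.V j → (A.V j).length ≤ (A.V i₀).length) :
    InU A (A.wd i₀ 0) i₀ 0 := by
  refine ⟨h0, rfl, ?_⟩
  rintro ⟨j', e', x', y', y₁, ⟨_, hv, hz⟩, h1, h2⟩
  obtain ⟨n, n1, n2⟩ := exists_shift (A.cpos i₀) 0 y₁
  have hp : Function.Periodic (A.tk i₀ 0) (A.c i₀ : ℤ) := A.tk_per i₀ 0
  have e1 : A.tk i₀ 0 (0 + n * A.c i₀) = A.V i₀ := by
    have := hp.int_mul n 0
    simp only [Int.cast_id] at this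
    rw [this, A.tk_self]
  have m1 := A.lf_mono i₀ 0 (show y₁ + 1 ≤ 0 + n * A.c i₀ by omega)
  have m2 := A.lf_lt i₀ 0 (0 + n * A.c i₀)
  have i1 : A.V i₀ <:+: iv (A.wd i₀ 0) x' y' := by
    rw [← e1, A.tk_eq]; exact iv_infix _ (by omega) (by omega)
  have i2 : iv (A.wd i₀ 0) x' y' <:+ A.V ((A.σ ^ (y' - e')) j') := (vx_vert A hv hz).2
  have l1 := hmax _ (i1.trans i2.isInfix)
  have l2 := i2.length_le
  have l3 : ((A.V i₀).length : ℤ) = 0 + n * A.c i₀ - A.lf i₀ 0 (0 + n * A.c i₀) := by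
    rw [← e1]; unfold Sys.lf; ring
  rw [length_iv] at l2
  omega

/-- a raw vertex above the shifted staircase of a member of `U` is not rooted -/
theorem raw_not_rt (hD : DistStmt) (hM : ¬ A.Move) {P : ℤ → ℕ} {j j' : I} {e y e' x' y' : ℤ}
    (hU : InU A P j e) (hR : Raw A P j' e' x' y') (hx : x' ≤ A.lf j e y) (hy : y - A.c j ≤ y') :
    ¬ A.rt j' := by
  intro hr
  obtain ⟨u1, u2, u3⟩ := hU
  have hP : ∀ z, P (z + A.c j) = P z := by rw [← u2]; exact A.wd_per j e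
  have hc := A.cpos j
  have h1 : A.lf j e (y' - A.c j) < x' := by
    by_contra h
    exact u3 ⟨j', e', x', y', y' - A.c j - 1, hR, by simpa using h, by omega⟩
  have h2 := A.lf_per j e (y - A.c j)
  rw [sub_add_cancel] at h2
  have h3 := A.lf_mono j e (show y - A.c j ≤ y' + 1 by omega)
  have h4 := A.lf_mono j e (show y' - A.c j ≤ y' + 1 by omega)
  obtain ⟨y₁, a1, a2, a3, a4⟩ := ivt' (f := A.lf j e) (v := max (A.lf j e (y' - A.c j)) (x' - A.c j))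
    (show y' - A.c j ≤ y' by omega) (le_max_left _ _) (by omega)
  set x₁ := max (A.lf j e (y' - A.c j)) (x' - A.c j) with hx₁
  refine hM (Or.inr (Or.inl ⟨(A.σ ^ (y₁ - e)) j, (A.σ ^ (y' - e')) j', iv P x₁ y₁, iv P x' y',
    by rwa [A.rt_zpow], by rwa [A.rt_zpow], vx_vert A ⟨a3, a4⟩ (fun z _ _ => by rw [u2]),
    vx_vert A hR.2.1 hR.2.2, ?_⟩))
  have d1 := dist_iv hD P (show x₁ ≤ x' by omega) a2
  have d2 := dist_iv hD P (show x' ≤ x₁ + A.c j by omega) (show y' ≤ y₁ + A.c j by omega)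
  rw [iv_per hP] at d2
  rw [A.c_zpow]
  omega

end Core

end Crest.Agent.R287
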