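import Crest.Agent.R287.Stmts

/-! Row 287, task DST: overlaps, distances and path costs. -/

set_option autoImplicit false

namespace Crest.Agent.R287

namespace DST

theorem le_foldr_max (l : List ℕ) (k : ℕ) (h : k ∈ l) : k ≤ l.foldr max 0 := by
  induction l with
  | nil => simp at h
  | cons x l ih =>
    rw [List.foldr_cons]
    rcases List.mem_cons.1 h with rfl | h
    · exact le_max_left _ _
    · exact (ih h).trans (le_max_right _ _)

theorem foldr_max_mem (l : List ℕ) : l.foldr max 0 = 0 ∨ l.foldr max 0 ∈ l := by
  induction l with
  | nil => left; rfl
  | cons x l ih =>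
    rw [List.foldr_cons]
    rcases le_total x (l.foldr max 0) with h | h
    · rw [max_eq_right h]
      rcases ih with ih | ih
      · left; exact ih
      · right; exact List.mem_cons_of_mem _ ih
    · rw [max_eq_left h]; right; exact List.mem_cons_self

theorem ov_spec (a b : Str) : ov a b ≤ b.length ∧ b.take (ov a b) <:+ a := by
  unfold ov
  rcases foldr_max_mem ((List.range (b.length + 1)).filter fun k => decide (b.take k <:+ a)) with
    h | h
  · rw [h]; simp
  · rw [List.mem_filter, List.mem_range] at h
    exact ⟨by omega, of_decide_eq_true h.2⟩

theorem le_ov (a b : Str) (k : ℕ) (hk : k ≤ b.length) (h : b.take k <:+ a) : k ≤ ov a b := by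
  unfold ov
  apply le_foldr_max
  rw [List.mem_filter, List.mem_range]
  exact ⟨by omega, decide_eq_true h⟩

theorem le_of_take (a b : Str) (k : ℕ) (h : b.take k <:+ a) : dist a b ≤ b.length - k := by
  unfold dist
  rcases le_total k b.length with hk | hk
  · have := le_ov a b k hk h; omega
  · rw [List.take_of_length_le hk] at h
    have := le_ov a b b.length le_rfl (by rwa [List.take_length])
    omega

theorem le_len (a b : Str) : dist a b ≤ b.length := by unfold dist; omega

theorem nil (b : Str) : dist [] b = b.length := by
  unfold dist
  obtain ⟨h1, h2⟩ := ov_spec [] b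
  have := h2.length_le
  simp only [List.length_take, List.length_nil] at this
  omega

theorem tri (a b c : Str) : dist a c ≤ dist a b + dist b c := by
  obtain ⟨h1, h2⟩ := ov_spec a b
  obtain ⟨h3, u, hu⟩ := ov_spec b c
  have hl : u.length + ov b c = b.length := by
    rw [← congrArg List.length hu, List.length_append, List.length_take, min_eq_left h3]
  rcases le_total u.length (ov a b) with h | h
  · have e : b.take (ov a b) = u ++ c.take (ov a b - u.length) := by
      have e0 : ∀ k, b.take k = (u ++ c.take (ov b c)).take k := fun k => by rw [hu]
      rw [e0, List.take_append, List.take_of_length_le h, List.take_take, min_eq_left (by omega)]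
    have h5 : c.take (ov a b - u.length) <:+ a := by
      refine List.IsSuffix.trans ?_ h2
      rw [e]; exact List.suffix_append _ _
    have := le_of_take a c _ h5
    unfold dist at *
    omega
  · unfold dist; omega

theorem suf (a b : Str) (h : b <:+ a) : dist a b = 0 := by
  have := le_of_take a b b.length (by rwa [List.take_length])
  omega

theorem one (a b : Str) (h : b.dropLast <:+ a) : dist a b ≤ 1 := by
  have := le_of_take a b (b.length - 1) (by rwa [← List.dropLast_eq_take])
  omega

theorem pnil (a : Str) : pcost a [] = 0 := rfl

theorem pcons (a b : Str) (R : List Str) : pcost a (b :: R) = dist a b + pcost b R := by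
  simp [pcost]

theorem papp (a : Str) (R R' : List Str) :
    pcost a (R ++ R') = pcost a R + pcost (R.getLastD a) R' := by
  induction R generalizing a with
  | nil => simp [pnil]
  | cons b R ih => rw [List.cons_append, pcons, pcons, ih, List.getLastD_cons]; omega

theorem pspell_cons (a b : Str) (R : List Str) :
    pspell a (b :: R) = b.drop (ov a b) ++ pspell b R := by
  simp [pspell]

theorem slen (a : Str) (R : List Str) : (pspell a R).length = pcost a R := by
  induction R generalizing a with
  | nil => rfl
  | cons b R ih => rw [pspell_cons, pcons, List.length_append, ih, List.length_drop]; rfl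

theorem sinf (a : Str) (R : List Str) : ∀ v ∈ R, v <:+: a ++ pspell a R := by
  induction R generalizing a with
  | nil => intro v hv; simp at hv
  | cons b R ih =>
    intro v hv
    obtain ⟨-, u, hu⟩ := ov_spec a b
    have e : a ++ pspell a (b :: R) = u ++ (b ++ pspell b R) := by
      have e0 : ∀ w, a ++ w = (u ++ b.take (ov a b)) ++ w := fun w => by rw [hu]
      rw [pspell_cons, e0, List.append_assoc, ← List.append_assoc (b.take _), List.take_append_drop]
    rw [e]
    rcases List.mem_cons.1 hv with rfl | hv
    · exact ⟨u, pspell v R, by simp⟩
    · exact (ih b v hv).trans (List.suffix_append _ _).isInfix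

end DST

theorem DST_proof : DistStmt :=
  ⟨DST.le_of_take, DST.le_len, DST.nil, DST.tri, DST.suf, DST.one, DST.pnil, DST.pcons, DST.papp,
    DST.slen, DST.sinf⟩

end Crest.Agent.R287
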