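import Crest.Agent.R287.Wrap

/-!
Row 287 (2-approximate shortest common superstring): the algorithm and the statements of the parts.

Phase 1 (`toks`): a list of *tokens* (factors of the inputs, longest first) such that the number
`cnt Vs s` of tokens ending with `s` is a lower bound for the number of occurrences of `s` in every
superstring; hence `W = #tokens ≤ OPT`.  Phase 2 (`cycles`): the tokens are arranged in cyclic lists in
which `dropLast` of the next token is a suffix of the current one (a closed walk of cost = its length).
Phase 3 (`final`): cycles are inserted, up to three at a time, in one open walk, paying at most twice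
their length.
-/

set_option autoImplicit false

namespace Crest.Agent.R287

open Crest.Agent.PT

abbrev Str := List ℕ

/-! ### phase 1 -/

def tot (S : List Str) : ℕ := S.flatten.length

/-- the factors of length `n` -/
def subsLen (S : List Str) (n : ℕ) : List Str :=
  S.flatMap fun s => (List.range (s.length + 1 - n)).map fun i => (s.drop i).take n

/-- all nonempty factors, longest first (with repetitions) -/
def subs (S : List Str) : List Str := (List.range (tot S)).flatMap fun k => subsLen S (tot S - k)

/-- the word of length `n` ending at position `e` (exclusive) of the `l`-periodic two-sided extension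
of `t` (`(l - 1) * n ≡ -n` modulo `l`) -/
def seg (t : Str) (l e n : ℕ) : Str :=
  (List.range n).map fun k => t.getD ((e + k + (l - 1) * n) % l) 0

/-- `V`, its last letter placed at position `e`, agrees with the periodic word on `[0,e)`, disagrees
at `e` and disagrees somewhere before -/
def brk (t : Str) (l e : ℕ) (V : Str) : Bool :=
  decide (seg t l e e <:+ V.dropLast ∧ V.getLastD 0 ≠ t.getD (e % l) 0 ∧
    V.dropLast ≠ seg t l e (V.length - 1))

def cnt (Vs : List Str) (s : Str) : ℕ := Vs.countP fun V => decide (s <:+ V)

def cntD (Vs : List Str) (s : Str) : ℕ := Vs.countP fun V => decide (s <:+ V.dropLast)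

/-- number of pairs (token, `e ∈ [a,b)`) with `brk` -/
def brs (Vs : List Str) (t : Str) (l a b : ℕ) : ℕ :=
  ((List.range (b - a)).map fun k => Vs.countP (brk t l (a + k))).sum

def need1 (N : ℕ) (Vs : List Str) (s t : Str) : ℕ :=
  if s.length < t.length ∧ s <+: t ∧ s <:+ t ∧
      brs Vs t (t.length - s.length) t.length N < cnt Vs t then
    cnt Vs t + 1 + brs Vs t (t.length - s.length) s.length t.length
  else 0

def need (S Vs : List Str) (s : Str) : ℕ :=
  max (max 1 (cntD Vs s)) (((subs S).map (need1 (tot S) Vs s)).foldr max 0)

def step1 (S Vs : List Str) (s : Str) : List Str :=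
  Vs ++ List.replicate (min (need S Vs s - cnt Vs s) (tot S)) s

def toks (S : List Str) : List Str := (subs S).foldl (step1 S) []

/-! ### phase 2 -/

/-- close the first open chain, or glue it behind another open chain -/
def step2 (st : List (List Str) × List (List Str)) : List (List Str) × List (List Str) :=
  if st.1 = [] then st
  else if ((st.1.headD []).headD []).dropLast <:+ (st.1.headD []).getLastD [] then
    (st.1.tail, st.1.headD [] :: st.2)
  else
    (st.1.tail.set
        (st.1.tail.findIdx fun C => decide (((st.1.headD []).headD []).dropLast <:+ C.getLastD []))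
        (st.1.tail.getD
          (st.1.tail.findIdx fun C => decide (((st.1.headD []).headD []).dropLast <:+ C.getLastD []))
          [] ++ st.1.headD []),
      st.2)

def cycles (Vs : List Str) : List (List Str) :=
  (step2^[Vs.length] (Vs.map fun V => [V], [])).2

/-! ### phase 3 -/

/-- longest prefix of `b` that is a suffix of `a` -/
def ov (a b : Str) : ℕ :=
  ((List.range (b.length + 1)).filter fun k => decide (b.take k <:+ a)).foldr max 0

def dist (a b : Str) : ℕ := b.length - ov a b

/-- cost of the path `a, R₀, R₁, …` -/
def pcost (a : Str) (R : List Str) : ℕ := (((a :: R).zip R).map fun p => dist p.1 p.2).sum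

/-- the letters appended along the path `a, R₀, R₁, …` -/
def pspell (a : Str) (R : List Str) : Str :=
  (((a :: R).zip R).map fun p => p.2.drop (ov p.1 p.2)).flatten

/-- all vertices of the closed walk of a cycle of tokens -/
def verts (Z : List Str) : List Str :=
  (List.range Z.length).flatMap fun p =>
    (List.range ((Z.getD p []).length - ((Z.getD ((p + 1) % Z.length) []).length - 1) + 1)).map
      fun k => (Z.getD p []).drop k

abbrev Item := ℕ × List Str

def items (U : List (List Str)) : List Item := U.map fun Z => (Z.length, verts Z)

/-- (budget, list to insert, remaining items) -/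
abbrev Cand := ℕ × List Str × List Item

def picks (q : Cand) : List Cand :=
  (List.range q.2.2.length).flatMap fun i =>
    (List.range (q.2.2.getD i (0, [])).2.length).map fun r =>
      (q.1 + 2 * (q.2.2.getD i (0, [])).1, q.2.1 ++ (q.2.2.getD i (0, [])).2.rotate r,
        q.2.2.eraseIdx i)

def cands (Zs : List Item) : List Cand :=
  picks (0, [], Zs) ++ ((picks (0, [], Zs)).flatMap picks ++
    ((picks (0, [], Zs)).flatMap picks).flatMap picks)

abbrev St3 := List Str × List Item

def moves (st : St3) : List St3 :=
  (cands st.2).flatMap fun q =>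
    (((List.range (st.1.length + 1)).map fun k => st.1.take k ++ (q.2.1 ++ st.1.drop k)).filter
      fun R => decide (pcost [] R ≤ pcost [] st.1 + q.1)).map fun R => (R, q.2.2)

def step3 (st : St3) : St3 := (moves st).headD st

def final (cy : List (List Str)) : St3 := step3^[cy.length] ([], items cy)

def algo (S : List Str) : Str := pspell [] (final (cycles (toks S))).1

/-! ### specifications -/

/-- what phase 1 guarantees (invariant under permuting `Vs`) -/
structure Forced (S : List Str) (N : ℕ) (Vs : List Str) : Prop where
  ne : ∀ V ∈ Vs, V ≠ []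
  len : ∀ V ∈ Vs, V.length ≤ N
  inp : ∀ s ∈ S, s ≠ [] → ∃ V ∈ Vs, s <:+ V
  bal : ∀ s, cntD Vs s ≤ cnt Vs s
  per : ∀ s t : Str, s ≠ [] → s.length < t.length → s <+: t → s <:+ t →
    brs Vs t (t.length - s.length) t.length N < cnt Vs t →
    cnt Vs t + 1 + brs Vs t (t.length - s.length) s.length t.length ≤ cnt Vs s

/-- the tokens sit at different right ends of `T` -/
def Emb (T : Str) (Vs : List Str) : Prop :=
  ∃ φ : ℕ → ℕ, (∀ i < Vs.length, φ i ≤ T.length ∧ Vs.getD i [] <:+ T.take (φ i)) ∧
    ∀ i < Vs.length, ∀ j < Vs.length, φ i = φ j → i = j

/-- number of occurrences of `s` in `T` (by right end) -/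
def occ (T s : Str) : ℕ := ((Finset.range (T.length + 1)).filter fun y => s <:+ T.take y).card

/-- cyclic chain condition -/
def Cyc (Z : List Str) : Prop :=
  Z ≠ [] ∧ ∀ p < Z.length, (Z.getD ((p + 1) % Z.length) []).dropLast <:+ Z.getD p []

/-- one of the four affordable connections (`U` unrooted cycles, `Rt` rooted cycles) -/
def MoveL (U Rt : List (List Str)) : Prop :=
  (∃ i < U.length, ∃ w ∈ verts (U.getD i []), w.length ≤ (U.getD i []).length) ∨
  (∃ i < U.length, ∃ w ∈ verts (U.getD i []), ∃ Z ∈ Rt, ∃ w' ∈ verts Z,
    dist w' w + dist w w' ≤ (U.getD i []).length) ∨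
  (∃ i < U.length, ∃ j < U.length, i ≠ j ∧ ∃ w ∈ verts (U.getD i []), ∃ w' ∈ verts (U.getD j []),
    w.length + dist w w' ≤ (U.getD i []).length + (U.getD j []).length) ∨
  (∃ i < U.length, ∃ j < U.length, ∃ k < U.length, i ≠ j ∧ i ≠ k ∧ j ≠ k ∧
    ∃ w ∈ verts (U.getD i []), ∃ w' ∈ verts (U.getD j []), ∃ w'' ∈ verts (U.getD k []),
    w.length + dist w w' + dist w' w'' ≤
      (U.getD i []).length + (U.getD j []).length + (U.getD k []).length)

end Crest.Agent.R287
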