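import Crest.Agent.R287.Stmts

/-! Row 287, task EXT. -/

set_option autoImplicit false

namespace Crest.Agent.R287

namespace EXT

theorem countP_eq_card {α : Type} (p : α → Bool) (d : α) (l : List α) :
    l.countP p = ((Finset.range l.length).filter fun i => p (l.getD i d) = true).card := by
  induction l using List.reverseRecOn with
  | nil => simp
  | append_singleton l a ih =>
    rw [List.countP_append, ih, List.length_append, List.length_singleton, Finset.range_add_one,
      Finset.filter_insert]
    have h1 : ((Finset.range l.length).filter fun i => p ((l ++ [a]).getD i d) = true) =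
        (Finset.range l.length).filter fun i => p (l.getD i d) = true := by
      apply Finset.filter_congr
      intro i hi
      rw [List.getD_append _ _ _ _ (Finset.mem_range.1 hi)]
    have h2 : (l ++ [a]).getD l.length d = a := by
      rw [List.getD_append_right _ _ _ _ le_rfl]; simp
    rw [h1, h2]
    by_cases h : p a = true
    · rw [if_pos h, Finset.card_insert_of_notMem (by simp)]
      simp [h]
    · rw [if_neg h]
      simp [h]

theorem one (T : Str) (Vs : List Str) (s : Str) (hE : Emb T Vs) (hl : ∀ V ∈ Vs, s.length ≤ V.length)
    (h : cnt Vs s < occ T s) : Emb T (Vs ++ [s]) := by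
  obtain ⟨φ, h1, h2⟩ := hE
  have hex : ∃ y, y ≤ T.length ∧ s <:+ T.take y ∧ ∀ i < Vs.length, φ i ≠ y := by
    by_contra hne
    push Not at hne
    have hsub : ((Finset.range (T.length + 1)).filter fun y => s <:+ T.take y) ⊆
        ((Finset.range Vs.length).filter fun i =>
          decide (s <:+ Vs.getD i []) = true).image φ := by
      intro y hy
      simp only [Finset.mem_filter, Finset.mem_range] at hy
      obtain ⟨i, hi, e⟩ := hne y (by omega) hy.2
      simp only [Finset.mem_image, Finset.mem_filter, Finset.mem_range, decide_eq_true_eq]
      refine ⟨i, ⟨hi, ?_⟩, e⟩
      have hs := (h1 i hi).2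
      rw [e] at hs
      refine List.suffix_of_suffix_length_le hy.2 hs (hl _ ?_)
      rw [List.getD_eq_getElem _ _ hi]
      exact List.getElem_mem hi
    have hc := (Finset.card_le_card hsub).trans Finset.card_image_le
    have := countP_eq_card (fun V : Str => decide (s <:+ V)) [] Vs
    have h3 : cnt Vs s = _ := this
    have h4 : occ T s ≤ _ := hc
    omega
  obtain ⟨y, hy1, hy2, hy3⟩ := hex
  refine ⟨fun i => if i < Vs.length then φ i else y, ?_, ?_⟩
  · intro i hi
    simp only [List.length_append, List.length_singleton] at hi
    by_cases h' : i < Vs.length
    · simp only [if_pos h']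
      rw [List.getD_append _ _ _ _ h']
      exact h1 i h'
    · simp only [if_neg h']
      have : i = Vs.length := by omega
      subst this
      rw [List.getD_append_right _ _ _ _ le_rfl]
      simpa using ⟨hy1, hy2⟩
  · intro i hi j hj e
    simp only [List.length_append, List.length_singleton] at hi hj
    by_cases h' : i < Vs.length <;> by_cases h'' : j < Vs.length
    · simp only [if_pos h', if_pos h''] at e
      exact h2 i h' j h'' e
    · simp only [if_pos h', if_neg h''] at e
      exact absurd e (hy3 i h')
    · simp only [if_neg h', if_pos h''] at e
      exact absurd e.symm (hy3 j h'')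
    · omega

end EXT

theorem EXT_proof : ExtStmt := by
  intro T Vs s k
  induction k generalizing Vs with
  | zero => intro hE _ _; simpa using hE
  | succ k ih =>
    intro hE hl h
    have h1 := EXT.one T Vs s hE hl (by omega)
    have h2 := ih (Vs ++ [s]) h1 (by
      intro V hV
      rcases List.mem_append.1 hV with hV | hV
      · exact hl V hV
      · simp only [List.mem_singleton] at hV
        rw [hV]) (by
      have : cnt (Vs ++ [s]) s = cnt Vs s + 1 := by
        unfold cnt
        rw [List.countP_append]
        simp
      omega)
    rw [List.replicate_succ]
    simpa using h2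

end Crest.Agent.R287
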