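import Crest.Agent.R287.Stmts

/-! Row 287, task FIN: the invariant of phase 3. -/

set_option autoImplicit false

namespace Crest.Agent.R287

namespace FIN

/-- a candidate removes the cycles `B` from `U`, pays twice their length, lists their vertices -/
def Good (U : List (List Str)) (q : Cand) : Prop :=
  ∃ U' B : List (List Str), U.Perm (U' ++ B) ∧ q.2.2 = items U' ∧ q.1 = 2 * B.flatten.length ∧
    ∀ Z ∈ B, ∀ w ∈ verts Z, w ∈ q.2.1

lemma length_items (U : List (List Str)) : (items U).length = U.length := by
  simp [items]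

lemma getD_items (U : List (List Str)) {i : ℕ} (hi : i < U.length) :
    (items U).getD i (0, []) = (U[i].length, verts U[i]) := by
  unfold items
  rw [List.getD_eq_getElem _ _ (by simpa using hi), List.getElem_map]

lemma eraseIdx_items (U : List (List Str)) (i : ℕ) :
    (items U).eraseIdx i = items (U.eraseIdx i) := by
  unfold items
  rw [List.eraseIdx_map]

lemma picks_good {U : List (List Str)} {q q' : Cand} (h : Good U q) (hq : q' ∈ picks q) :
    Good U q' ∧ q'.2.2.length < q.2.2.length := by
  obtain ⟨U', B, hp, h2, h1, hv⟩ := h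
  unfold picks at hq
  rw [List.mem_flatMap] at hq
  obtain ⟨i, hi, hq⟩ := hq
  rw [List.mem_map] at hq
  obtain ⟨r, -, rfl⟩ := hq
  have hi0 : i < q.2.2.length := List.mem_range.1 hi
  have hi' : i < U'.length := by rw [h2, length_items] at hi0; exact hi0
  refine ⟨⟨U'.eraseIdx i, U'[i] :: B, ?_, ?_, ?_, ?_⟩, ?_⟩
  · refine hp.trans ?_
    have h3 : U'.Perm (U'[i] :: U'.eraseIdx i) := (List.getElem_cons_eraseIdx_perm hi').symm
    exact (h3.append_right B).trans List.perm_middle.symm
  · simp only [h2, eraseIdx_items]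
  · simp only [h2, getD_items U' hi', h1, List.flatten_cons, List.length_append]
    omega
  · intro Z hZ w hw
    simp only [h2, getD_items U' hi', List.mem_append, List.mem_rotate]
    rcases List.mem_cons.1 hZ with rfl | hZ
    · exact Or.inr hw
    · exact Or.inl (hv Z hZ w hw)
  · simp only [List.length_eraseIdx_of_lt hi0]
    omega

lemma good0 (U : List (List Str)) : Good U (0, [], items U) :=
  ⟨U, [], by simp, rfl, by simp, by simp⟩

lemma cands_good {U : List (List Str)} {q : Cand} (hq : q ∈ cands (items U)) :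
    Good U q ∧ q.2.2.length < (items U).length := by
  unfold cands at hq
  rcases List.mem_append.1 hq with hq | hq
  · exact picks_good (good0 U) hq
  rcases List.mem_append.1 hq with hq | hq
  · obtain ⟨q1, h1, hq⟩ := List.mem_flatMap.1 hq
    have a1 := picks_good (good0 U) h1
    have a2 := picks_good a1.1 hq
    exact ⟨a2.1, a2.2.trans a1.2⟩
  · obtain ⟨q2, h2, hq⟩ := List.mem_flatMap.1 hq
    obtain ⟨q1, h1, h2⟩ := List.mem_flatMap.1 h2
    have a1 := picks_good (good0 U) h1
    have a2 := picks_good a1.1 h2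
    have a3 := picks_good a2.1 hq
    exact ⟨a3.1, a3.2.trans (a2.2.trans a1.2)⟩

def Inv (cy : List (List Str)) (st : St3) : Prop :=
  ∃ U Rt : List (List Str), cy.Perm (U ++ Rt) ∧ st.2 = items U ∧
    (∀ Z ∈ Rt, ∀ w ∈ verts Z, w ∈ st.1) ∧
    pcost [] st.1 + 2 * U.flatten.length ≤ 2 * cy.flatten.length

lemma moves_inv {cy : List (List Str)} {st st' : St3} (h : Inv cy st) (hm : st' ∈ moves st) :
    Inv cy st' ∧ st'.2.length < st.2.length := by
  obtain ⟨U, Rt, hp, h2, hv, hc⟩ := h
  unfold moves at hm
  obtain ⟨q, hq, hm⟩ := List.mem_flatMap.1 hm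
  obtain ⟨R, hR, rfl⟩ := List.mem_map.1 hm
  obtain ⟨hR, hle⟩ := List.mem_filter.1 hR
  obtain ⟨k, -, rfl⟩ := List.mem_map.1 hR
  have hle' := of_decide_eq_true hle
  rw [h2] at hq
  obtain ⟨⟨U', B, hp', g2, g1, gv⟩, hlt⟩ := cands_good hq
  refine ⟨⟨U', B ++ Rt, ?_, g2, ?_, ?_⟩, by rw [h2]; exact hlt⟩
  · rw [← List.append_assoc]
    exact hp.trans (hp'.append_right Rt)
  · intro Z hZ w hw
    simp only [List.mem_append]
    rcases List.mem_append.1 hZ with hZ | hZ
    · exact Or.inr (Or.inl (gv Z hZ w hw))
    · have := hv Z hZ w hw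
      rw [← List.take_append_drop k st.1, List.mem_append] at this
      rcases this with h | h
      · exact Or.inl h
      · exact Or.inr (Or.inr h)
  · have := hp'.flatten.length_eq
    rw [List.flatten_append, List.length_append] at this
    simp only
    omega

lemma step_cases (st : St3) : (moves st = [] ∧ step3 st = st) ∨ step3 st ∈ moves st := by
  unfold step3
  cases h : moves st with
  | nil => exact Or.inl ⟨rfl, rfl⟩
  | cons a l => exact Or.inr (by simp)

lemma iter (cy : List (List Str)) (n : ℕ) :
    Inv cy (step3^[n] ([], items cy)) ∧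
      (moves (step3^[n] ([], items cy)) = [] ∨
        (step3^[n] ([], items cy)).2.length + n ≤ cy.length) := by
  induction n with
  | zero =>
    refine ⟨⟨cy, [], by simp, rfl, by simp, by simp [pcost]⟩, Or.inr ?_⟩
    simp [length_items]
  | succ n ih =>
    rw [Function.iterate_succ_apply']
    rcases step_cases (step3^[n] ([], items cy)) with ⟨h0, h1⟩ | h
    · rw [h1]
      exact ⟨ih.1, Or.inl h0⟩
    · have a := moves_inv ih.1 h
      refine ⟨a.1, Or.inr ?_⟩
      rcases ih.2 with h0 | h0
      · rw [h0] at h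
        exact absurd h List.not_mem_nil
      · have := a.2
        omega

lemma moves_nil (st : St3) (h : st.2 = []) : moves st = [] := by
  unfold moves
  rw [h]
  simp [cands, picks]

end FIN

theorem FIN_proof : FinStmt := by
  intro cy
  obtain ⟨⟨U, Rt, hp, h2, hv, hc⟩, hm⟩ := FIN.iter cy cy.length
  refine ⟨U, Rt, hp, h2, hv, hc, ?_⟩
  rcases hm with hm | hm
  · exact hm
  · exact FIN.moves_nil _ (List.eq_nil_of_length_eq_zero (by unfold final; omega))

end Crest.Agent.R287
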