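import Crest.Agent.R287.Stmts

/-! Row 287: assembly. -/

set_option autoImplicit false

namespace Crest.Agent.R287

theorem Forced.perm {S : List Str} {N : ℕ} {Vs Vs' : List Str} (h : Forced S N Vs) (p : Vs.Perm Vs') :
    Forced S N Vs' := by
  have c1 : ∀ s, cnt Vs' s = cnt Vs s := fun s => (p.countP_eq _).symm
  have c2 : ∀ s, cntD Vs' s = cntD Vs s := fun s => (p.countP_eq _).symm
  have c3 : ∀ t l a b, brs Vs' t l a b = brs Vs t l a b := by
    intro t l a b
    unfold brs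
    congr 1
    exact List.map_congr_left fun k _ => (p.countP_eq _).symm
  refine ⟨fun V hV => h.ne V (p.mem_iff.2 hV), fun V hV => h.len V (p.mem_iff.2 hV), ?_, ?_, ?_⟩
  · intro s hs hne
    obtain ⟨V, hV, h2⟩ := h.inp s hs hne
    exact ⟨V, p.mem_iff.1 hV, h2⟩
  · intro s; rw [c1, c2]; exact h.bal s
  · intro s t h1 h2 h3 h4
    rw [c1, c1, c3, c3]
    exact h.per s t h1 h2 h3 h4

theorem main (hTok : TokStmt) (hCyc : CycStmt) (hD : DistStmt) (hVert : VertStmt) (hMv : MvStmt)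
    (hFin : FinStmt) (hCore : CoreLStmt) (S : List Str) : Good S (algo S) := by
  obtain ⟨hF, hsort, hlb⟩ := hTok S
  obtain ⟨hperm, hcyc⟩ := hCyc (toks S) hF.ne hsort hF.bal
  obtain ⟨U, Rt, p, h2, h3, h4, h5⟩ := hFin (cycles (toks S))
  have hF' : Forced S (tot S) (U ++ Rt).flatten := hF.perm (hperm.symm.trans p.flatten)
  have hc' : ∀ Z ∈ U ++ Rt, Cyc Z := fun Z hZ => hcyc Z (p.mem_iff.2 hZ)
  have hne : ∀ Z ∈ U ++ Rt, ∀ V ∈ Z, V ≠ [] := fun Z hZ V hV =>
    hF'.ne V (List.mem_flatten.2 ⟨Z, hZ, hV⟩)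
  refine ⟨fun s hs => ?_, fun T hT => ?_⟩
  · by_cases hs0 : s = []
    · rw [hs0]; exact List.nil_infix
    rcases hCore S (tot S) U Rt hF' hc' s hs hs0 with ⟨Z, hZ, V, hV, hsV⟩ | hm
    · have hZ' : Z ∈ U ++ Rt := List.mem_append_right _ hZ
      obtain ⟨i, hi, rfl⟩ := List.getElem_of_mem hV
      have e : Z.getD i [] = Z[i] := List.getD_eq_getElem _ _ hi
      have hv : Z[i] ∈ verts Z := ((hVert Z (hc' Z hZ') (hne Z hZ')).1 _).2
        ⟨i, hi, by rw [← e]; exact (hc' Z hZ').2 i hi, by rw [e]⟩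
      have := hD.sinf [] _ _ (h3 Z hZ _ hv)
      exact hsV.trans (by simpa [algo] using this)
    · exfalso
      refine hMv U Rt (final (cycles (toks S))).1 (fun Z hZ => ?_) h3 hm ?_
      · have hZ' : Z ∈ U ++ Rt := List.mem_append_left _ hZ
        exact ⟨hc' Z hZ', hne Z hZ'⟩
      · rw [← h2]; exact h5
  · have := hlb T hT
    have e := hperm.length_eq
    unfold algo
    rw [hD.slen]
    omega

end Crest.Agent.R287
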