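import Crest.Agent.R287.Stmts

/-! Row 287, task MV: an affordable connection gives a move of phase 3. -/

set_option autoImplicit false

namespace Crest.Agent.R287

namespace MV

lemma pcost_le (hD : DistStmt) (a w : Str) (B : List Str) :
    pcost a B ≤ dist a w + pcost w B := by
  cases B with
  | nil => rw [hD.pnil]; omega
  | cons b B =>
    rw [hD.pcons, hD.pcons]
    have := hD.tri a w b
    omega

lemma ins (hD : DistStmt) (a w : Str) (L B : List Str) {c : ℕ} (h : pcost w (L ++ [w]) ≤ c) :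
    pcost a (w :: L ++ B) ≤ dist a w + c + pcost w B := by
  rw [hD.papp, hD.pcons, hD.pnil] at h
  rw [List.cons_append, hD.pcons, hD.papp]
  have := pcost_le hD (L.getLastD w) w B
  omega

lemma mem_picks (q : Cand) {i r : ℕ} (hi : i < q.2.2.length)
    (hr : r < (q.2.2.getD i (0, [])).2.length) :
    (q.1 + 2 * (q.2.2.getD i (0, [])).1, q.2.1 ++ (q.2.2.getD i (0, [])).2.rotate r,
      q.2.2.eraseIdx i) ∈ picks q := by
  unfold picks
  rw [List.mem_flatMap]
  exact ⟨i, List.mem_range.2 hi, List.mem_map.2 ⟨r, List.mem_range.2 hr, rfl⟩⟩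

/-- index after an erasure -/
def sh (i j : ℕ) : ℕ := if j < i then j else j - 1

lemma sh_lt {α : Type} (l : List α) {i j : ℕ} (hi : i < l.length) (hj : j < l.length) (h : i ≠ j) :
    sh i j < (l.eraseIdx i).length := by
  rw [List.length_eraseIdx_of_lt hi]
  unfold sh
  split_ifs <;> omega

lemma getD_sh {α : Type} (l : List α) (d : α) {i j : ℕ} (h : i ≠ j) :
    (l.eraseIdx i).getD (sh i j) d = l.getD j d := by
  rw [List.getD_eq_getElem?_getD, List.getD_eq_getElem?_getD, List.getElem?_eraseIdx]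
  unfold sh
  by_cases hj : j < i
  · rw [if_pos hj, if_pos hj]
  · rw [if_neg hj, if_neg (by omega), show j - 1 + 1 = j by omega]

lemma sh_ne {i j k : ℕ} (h1 : i ≠ j) (h2 : i ≠ k) (h3 : j ≠ k) : sh i j ≠ sh i k := by
  unfold sh
  split_ifs <;> omega

lemma getD_items (U : List (List Str)) {i : ℕ} (hi : i < U.length) :
    (items U).getD i (0, []) = ((U.getD i []).length, verts (U.getD i [])) := by
  unfold items
  rw [List.getD_eq_getElem _ _ (by simpa using hi), List.getD_eq_getElem _ _ hi, List.getElem_map]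

lemma length_items (U : List (List Str)) : (items U).length = U.length := by
  simp [items]

lemma moves_ne {R : List Str} {Zs : List Item} {q : Cand} (hq : q ∈ cands Zs) {k : ℕ}
    (hk : k ≤ R.length) (h : pcost [] (R.take k ++ (q.2.1 ++ R.drop k)) ≤ pcost [] R + q.1) :
    moves (R, Zs) ≠ [] := by
  refine List.ne_nil_of_mem (a := (R.take k ++ (q.2.1 ++ R.drop k), q.2.2)) ?_
  unfold moves
  rw [List.mem_flatMap]
  refine ⟨q, hq, List.mem_map.2 ⟨_, List.mem_filter.2 ⟨List.mem_map.2
    ⟨k, List.mem_range.2 (Nat.lt_succ_of_le hk), rfl⟩, ?_⟩, rfl⟩⟩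
  exact decide_eq_true h

lemma moves_end (hD : DistStmt) {R : List Str} {Zs : List Item} {q : Cand} (hq : q ∈ cands Zs)
    (h : ∀ a, pcost a q.2.1 ≤ q.1) : moves (R, Zs) ≠ [] := by
  refine moves_ne hq le_rfl ?_
  rw [List.take_length, List.drop_length, List.append_nil, hD.papp]
  exact Nat.add_le_add_left (h _) _

/-- a pick of a prescribed vertex -/
lemma pick (hV : VertStmt) (q : Cand) {i : ℕ} (hi : i < q.2.2.length) {Z : List Str}
    (hZ : Cyc Z ∧ ∀ V ∈ Z, V ≠ []) (he : q.2.2.getD i (0, []) = (Z.length, verts Z)) {w : Str}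
    (hw : w ∈ verts Z) : ∃ L, pcost w (L ++ [w]) ≤ Z.length ∧
      (q.1 + 2 * Z.length, q.2.1 ++ w :: L, q.2.2.eraseIdx i) ∈ picks q := by
  obtain ⟨r, hr, L, hL, hc⟩ := (hV Z hZ.1 hZ.2).2 w hw
  have := mem_picks q hi (r := r) (by rw [he]; exact hr)
  rw [he] at this
  simp only [hL] at this
  exact ⟨L, hc, this⟩

end MV

theorem MV_proof (hD : DistStmt) (hVert : VertStmt) : MvStmt := by
  intro U Rt R hU hRt hM
  have hZ : ∀ i < U.length, Cyc (U.getD i []) ∧ ∀ V ∈ U.getD i [], V ≠ [] := fun i hi =>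
    hU _ (by rw [List.getD_eq_getElem _ _ hi]; exact List.getElem_mem hi)
  have hl := MV.length_items U
  rcases hM with ⟨i, hi, w, hw, h⟩ | ⟨i, hi, w, hw, Z, hZR, w', hw', h⟩ |
    ⟨i, hi, j, hj, hij, w, hw, w', hw', h⟩ |
    ⟨i, hi, j, hj, k, hk, hij, hik, hjk, w, hw, w', hw', w'', hw'', h⟩
  · obtain ⟨L, hc, hq⟩ := MV.pick hVert (0, [], items U) (i := i) (by simpa [hl] using hi)
      (hZ i hi) (MV.getD_items U hi) hw
    refine MV.moves_end hD (List.mem_append_left _ hq) fun a => ?_
    have h1 := MV.ins hD a w L [] hc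
    have h2 := hD.le_len a w
    rw [hD.pnil, List.append_nil] at h1
    simp only [List.nil_append]
    omega
  · obtain ⟨L, hc, hq⟩ := MV.pick hVert (0, [], items U) (i := i) (by simpa [hl] using hi)
      (hZ i hi) (MV.getD_items U hi) hw
    obtain ⟨A, B, rfl⟩ := List.append_of_mem (hRt Z hZR w' hw')
    refine MV.moves_ne (List.mem_append_left _ hq) (k := (A ++ [w']).length) (by simp) ?_
    have e : A ++ w' :: B = (A ++ [w']) ++ B := by simp
    rw [e, List.take_left', List.drop_left', hD.papp, hD.papp (R := A ++ [w'])] <;> try rfl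
    have e2 : (A ++ [w']).getLastD [] = w' := by simp
    rw [e2]
    have h1 := MV.ins hD w' w L B hc
    have h2 := MV.pcost_le hD w w' B
    simp only [List.nil_append]
    omega
  · obtain ⟨L, hc, hq⟩ := MV.pick hVert (0, [], items U) (i := i) (by simpa [hl] using hi)
      (hZ i hi) (MV.getD_items U hi) hw
    obtain ⟨L', hc', hq'⟩ := MV.pick hVert
      (0 + 2 * (U.getD i []).length, [] ++ w :: L, (items U).eraseIdx i) (i := MV.sh i j)
      (MV.sh_lt _ (hl ▸ hi) (hl ▸ hj) hij) (hZ j hj)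
      (by simp only; rw [MV.getD_sh _ _ hij, MV.getD_items U hj]) hw'
    refine MV.moves_end hD (List.mem_append_right _ (List.mem_append_left _
      (List.mem_flatMap.2 ⟨_, hq, hq'⟩))) fun a => ?_
    have h1 := MV.ins hD a w L (w' :: L') hc
    have h2 := hD.le_len a w
    have h3 := MV.ins hD w w' L' [] hc'
    rw [hD.pnil, List.append_nil] at h3
    simp only [List.nil_append]
    omega
  · obtain ⟨L, hc, hq⟩ := MV.pick hVert (0, [], items U) (i := i) (by simpa [hl] using hi)
      (hZ i hi) (MV.getD_items U hi) hw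
    obtain ⟨L', hc', hq'⟩ := MV.pick hVert
      (0 + 2 * (U.getD i []).length, [] ++ w :: L, (items U).eraseIdx i) (i := MV.sh i j)
      (MV.sh_lt _ (hl ▸ hi) (hl ▸ hj) hij) (hZ j hj)
      (by simp only; rw [MV.getD_sh _ _ hij, MV.getD_items U hj]) hw'
    obtain ⟨L'', hc'', hq''⟩ := MV.pick hVert
      (0 + 2 * (U.getD i []).length + 2 * (U.getD j []).length, ([] ++ w :: L) ++ w' :: L',
        ((items U).eraseIdx i).eraseIdx (MV.sh i j)) (i := MV.sh (MV.sh i j) (MV.sh i k))
      (MV.sh_lt _ (MV.sh_lt _ (hl ▸ hi) (hl ▸ hj) hij) (MV.sh_lt _ (hl ▸ hi) (hl ▸ hk) hik)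
        (MV.sh_ne hij hik hjk)) (hZ k hk)
      (by simp only; rw [MV.getD_sh _ _ (MV.sh_ne hij hik hjk), MV.getD_sh _ _ hik,
        MV.getD_items U hk]) hw''
    refine MV.moves_end hD (List.mem_append_right _ (List.mem_append_right _
      (List.mem_flatMap.2 ⟨_, List.mem_flatMap.2 ⟨_, hq, hq'⟩, hq''⟩))) fun a => ?_
    have h1 := MV.ins hD a w L (w' :: L' ++ w'' :: L'') hc
    have h2 := hD.le_len a w
    have h3 := MV.ins hD w w' L' (w'' :: L'') hc'
    have h4 := MV.ins hD w' w'' L'' [] hc''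
    rw [hD.pnil, List.append_nil] at h4
    simp only [List.nil_append]
    rw [List.append_assoc]
    omega

end Crest.Agent.R287
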