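import Crest.Agent.R287.Stmts

set_option autoImplicit false

namespace Crest.Agent.R287

open Finset

namespace NEED

theorem countP_eq_card (p : Str → Bool) (Vs : List Str) :
    Vs.countP p = ((range Vs.length).filter fun i => p (Vs.getD i []) = true).card := by
  induction Vs using List.reverseRecOn with
  | nil => simp
  | append_singleton Vs V ih =>
    rw [List.countP_append, List.length_append, List.length_singleton, range_add_one, filter_insert, ih]
    have e : (range Vs.length).filter (fun i => p ((Vs ++ [V]).getD i []) = true) =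
        (range Vs.length).filter fun i => p (Vs.getD i []) = true := by
      refine filter_congr fun i hi => ?_
      rw [List.getD_append _ _ _ _ (mem_range.1 hi)]
    have e2 : (Vs ++ [V]).getD Vs.length [] = V := by
      rw [List.getD_append_right _ _ _ _ le_rfl]; simp
    rw [e, e2]
    by_cases h : p V = true
    · rw [if_pos h, card_insert_of_notMem (by simp)]; simp [h]
    · rw [if_neg h]; simp [h]

theorem sum_range_list (f : ℕ → ℕ) (n : ℕ) :
    ((List.range n).map f).sum = ∑ k ∈ range n, f k := by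
  induction n with
  | zero => simp
  | succ n ih => rw [List.range_succ, List.map_append, List.sum_append, ih, sum_range_succ]; simp

theorem brs_eq_card (Vs : List Str) (t : Str) (l a b : ℕ) :
    brs Vs t l a b = ((Ico a b ×ˢ range Vs.length).filter
      fun q => brk t l q.1 (Vs.getD q.2 []) = true).card := by
  unfold brs
  rw [sum_range_list, card_filter, sum_product, sum_Ico_eq_sum_range]
  refine sum_congr rfl fun k _ => ?_
  rw [countP_eq_card, card_filter]

theorem suffix_iff (a b : Str) : a <:+ b ↔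
    a.length ≤ b.length ∧ ∀ k < a.length, a.getD k 0 = b.getD (b.length - a.length + k) 0 := by
  constructor
  · rintro ⟨c, rfl⟩
    refine ⟨by simp, fun k _ => ?_⟩
    rw [List.getD_append_right _ _ _ _ (by simp)]
    congr 1
    simp
  · rintro ⟨h1, h2⟩
    have : a = b.drop (b.length - a.length) := by
      refine List.ext_getElem (by simp; omega) fun k h h' => ?_
      have := h2 k h
      rw [List.getD_eq_getElem _ _ h, List.getD_eq_getElem _ _ (by omega)] at this
      rw [this]; simp
    rw [this]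
    exact List.drop_suffix _ _

theorem getD_take (T : Str) (y k : ℕ) (h : k < y) : (T.take y).getD k 0 = T.getD k 0 := by
  simp [List.getD_eq_getElem?_getD, h]

theorem sf_iff (T a : Str) (x : ℕ) (h : x + a.length ≤ T.length) :
    a <:+ T.take (x + a.length) ↔ ∀ k < a.length, a.getD k 0 = T.getD (x + k) 0 := by
  rw [suffix_iff, List.length_take, min_eq_left h]
  simp only [Nat.add_sub_cancel]
  constructor
  · rintro ⟨-, h2⟩ k hk
    rw [h2 k hk, getD_take _ _ _ (by omega)]
  · intro h2
    refine ⟨by omega, fun k hk => ?_⟩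
    rw [h2 k hk, getD_take _ _ _ (by omega)]

theorem sf_len {T a : Str} {y : ℕ} (h : a <:+ T.take y) : a.length ≤ y := by
  have := h.length_le
  rw [List.length_take] at this
  omega

theorem dl {T V : Str} {y : ℕ} (hV : V ≠ []) (hy : y ≤ T.length) (h : V <:+ T.take y) :
    1 ≤ y ∧ V.dropLast <:+ T.take (y - 1) ∧ V.getLastD 0 = T.getD (y - 1) 0 := by
  obtain ⟨W, a, rfl⟩ := (List.eq_nil_or_concat' V).resolve_left hV
  obtain ⟨c, hc⟩ := h
  have hl := congrArg List.length hc
  simp only [List.length_append, List.length_take, List.length_singleton, min_eq_left hy] at hl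
  refine ⟨by omega, ?_, ?_⟩
  · have : T.take (y - 1) = (T.take y).take (y - 1) := by
      rw [List.take_take, min_eq_left (by omega)]
    rw [this, ← hc, ← List.append_assoc, List.take_left' (by simp; omega)]
    simp
  · rw [← getD_take T y (y - 1) (by omega), ← hc, ← List.append_assoc,
      List.getD_append_right _ _ _ _ (by simp; omega)]
    simp [show y - 1 - (c.length + W.length) = 0 by omega]

/-- `T` follows the periodic word on `[x, x+e)` -/
def Ag (T t : Str) (l x e : ℕ) : Prop :=
  x + e ≤ T.length ∧ ∀ k < e, T.getD (x + k) 0 = t.getD (k % l) 0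

theorem Ag.mono {T t : Str} {l x e e' : ℕ} (h : Ag T t l x e) (he : e' ≤ e) : Ag T t l x e' :=
  ⟨by have := h.1; omega, fun k hk => h.2 k (by omega)⟩

theorem seg_length (t : Str) (l e n : ℕ) : (seg t l e n).length = n := by simp [seg]

theorem seg_getD (t : Str) (l e n k : ℕ) (hk : k < n) :
    (seg t l e n).getD k 0 = t.getD ((e + k + (l - 1) * n) % l) 0 := by
  rw [List.getD_eq_getElem _ _ (by rw [seg_length]; exact hk)]
  simp [seg]

theorem seg_getD' (t : Str) (l e n k : ℕ) (hl : 0 < l) (hn : n ≤ e) (hk : k < n) :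
    (seg t l e n).getD k 0 = t.getD ((e - n + k) % l) 0 := by
  rw [seg_getD _ _ _ _ _ hk]
  obtain ⟨l, rfl⟩ : ∃ l', l = l' + 1 := ⟨l - 1, by omega⟩
  have : e + k + (l + 1 - 1) * n = (e - n + k) + (l + 1) * n := by
    simp only [Nat.add_sub_cancel, Nat.add_mul]; omega
  rw [this, Nat.add_mul_mod_self_left]

theorem seg_per (t : Str) (l e n m : ℕ) : seg t l (e + m * l) n = seg t l e n := by
  unfold seg
  refine List.map_congr_left fun k _ => ?_
  rw [show e + m * l + k + (l - 1) * n = e + k + (l - 1) * n + m * l by ring,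
    Nat.add_mul_mod_self_right]

theorem seg_sf {T t : Str} {l x e n : ℕ} (hl : 0 < l) (hn : n ≤ e) (h : Ag T t l x e) :
    seg t l e n <:+ T.take (x + e) := by
  have h1 := h.1
  have := (sf_iff T (seg t l e n) (x + e - n) (by rw [seg_length]; omega)).2 (fun k hk => by
    rw [seg_length] at hk
    rw [seg_getD' _ _ _ _ _ hl hn hk, ← h.2 _ (by omega)]
    congr 1; omega)
  rwa [seg_length, show x + e - n + n = x + e by omega] at this

theorem ag_of_seg {T t : Str} {l x e : ℕ} (hl : 0 < l) (hy : x + e ≤ T.length)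
    (h : seg t l e e <:+ T.take (x + e)) : Ag T t l x e := by
  refine ⟨hy, fun k hk => ?_⟩
  have := (sf_iff T (seg t l e e) x (by rw [seg_length]; exact hy)).1 (by rwa [seg_length]) k
    (by rwa [seg_length])
  rw [← this, seg_getD' _ _ _ _ _ hl le_rfl hk]
  simp

theorem per {s t : Str} (h1 : s.length < t.length) (h2 : s <+: t) (h3 : s <:+ t) :
    ∀ k < t.length, t.getD k 0 = t.getD (k % (t.length - s.length)) 0 := by
  intro k
  induction k using Nat.strong_induction_on with
  | _ k ih =>
    intro hk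
    by_cases h : k < t.length - s.length
    · rw [Nat.mod_eq_of_lt h]
    · obtain ⟨j, rfl⟩ : ∃ j, k = t.length - s.length + j := ⟨k - (t.length - s.length), by omega⟩
      have a1 := ((suffix_iff s t).1 h3).2 j (by omega)
      obtain ⟨c, hc⟩ := h2
      have a2 : t.getD j 0 = s.getD j 0 := by
        rw [← hc, List.getD_append _ _ _ _ (by omega)]
      rw [← a1, ← a2, Nat.add_mod_left]
      exact ih j (by omega) (by omega)

/-- a breaking token marks the end of an agreement -/
theorem of_brk {T t V : Str} {l e y : ℕ} (hl : 0 < l) (hV : V ≠ []) (hy : y ≤ T.length)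
    (h : V <:+ T.take y) (hb : brk t l e V = true) :
    e + 1 ≤ y ∧ Ag T t l (y - 1 - e) e ∧ ¬ Ag T t l (y - 1 - e) (e + 1) := by
  obtain ⟨d1, d2, d3⟩ := dl hV hy h
  unfold brk at hb
  obtain ⟨b1, b2, -⟩ := of_decide_eq_true hb
  have c1 := b1.trans d2
  have c2 := sf_len c1
  rw [seg_length] at c2
  have e1 : y - 1 - e + e = y - 1 := by omega
  refine ⟨by omega, ag_of_seg hl (by omega) (by rwa [e1]), fun hc => b2 ?_⟩
  rw [d3, ← hc.2 e (by omega), e1]

theorem need1_le (T : Str) (Vs : List Str) (N : ℕ) (s t : Str) (hE : Emb T Vs)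
    (hne : ∀ V ∈ Vs, V ≠ []) (hN : ∀ V ∈ Vs, V.length ≤ N) : need1 N Vs s t ≤ occ T s := by
  classical
  unfold need1
  split_ifs with hc
  swap
  · exact Nat.zero_le _
  obtain ⟨h1, h2, h3, h4⟩ := hc
  obtain ⟨φ, hφ, hinj⟩ := hE
  have hper := per h1 h2 h3
  obtain ⟨l, hl⟩ : ∃ l, l = t.length - s.length := ⟨_, rfl⟩
  rw [← hl] at h4 hper ⊢
  have hl0 : 0 < l := by omega
  have hmem : ∀ i < Vs.length, Vs.getD i [] ∈ Vs := fun i hi => by
    rw [List.getD_eq_getElem _ _ hi]; exact List.getElem_mem hi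
  have hO : ((range (T.length + 1)).filter fun x => Ag T t l x s.length).card ≤ occ T s := by
    unfold occ
    refine card_le_card_of_injOn (fun x => x + s.length) (fun x hx => ?_)
      (fun x _ y _ h => by simpa using h)
    have hx' := (mem_filter.1 (mem_coe.1 hx)).2
    have a := hx'.1
    refine mem_coe.2 (mem_filter.2 ⟨mem_range.2 (by simp only; omega),
      (sf_iff T s x a).2 fun k hk => ?_⟩)
    obtain ⟨c, hc⟩ := h2
    rw [hx'.2 k hk, ← hper k (by omega), ← hc, List.getD_append _ _ _ _ hk]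
  refine le_trans ?_ hO
  set A := (range Vs.length).filter fun i => decide (t <:+ Vs.getD i []) = true with hA
  have hAg : ∀ i ∈ A, t.length ≤ φ i ∧ Ag T t l (φ i - t.length) t.length := by
    intro i hi
    obtain ⟨i1, i2⟩ := mem_filter.1 hi
    obtain ⟨j1, j2⟩ := hφ i (mem_range.1 i1)
    have c1 := (of_decide_eq_true i2).trans j2
    have c2 := sf_len c1
    have e1 : φ i - t.length + t.length = φ i := by omega
    refine ⟨c2, by omega, fun k hk => ?_⟩
    rw [← (sf_iff T t (φ i - t.length) (by omega)).1 (by rwa [e1]) k hk, hper k hk]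
  have hAc : (A.image fun i => φ i - t.length).card = cnt Vs t := by
    unfold cnt
    rw [countP_eq_card, card_image_of_injOn]
    intro i hi j hj h
    have a1 := (hAg i hi).1
    have a2 := (hAg j hj).1
    exact hinj i (mem_range.1 (mem_filter.1 hi).1) j (mem_range.1 (mem_filter.1 hj).1)
      (by simp only at h; omega)
  set B := fun a b => (Ico a b ×ˢ range Vs.length).filter
    fun q => brk t l q.1 (Vs.getD q.2 []) = true with hB
  have hBg : ∀ a b, ∀ q ∈ B a b, a ≤ q.1 ∧ q.1 < b ∧ q.2 < Vs.length ∧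
      brk t l q.1 (Vs.getD q.2 []) = true ∧ q.1 + 1 ≤ φ q.2 ∧ Ag T t l (φ q.2 - 1 - q.1) q.1 ∧
      ¬ Ag T t l (φ q.2 - 1 - q.1) (q.1 + 1) := by
    intro a b q hq
    obtain ⟨i1, i2⟩ := mem_filter.1 hq
    obtain ⟨i3, i4⟩ := mem_product.1 i1
    have i5 := mem_range.1 i4
    obtain ⟨j1, j2⟩ := hφ q.2 i5
    exact ⟨(mem_Ico.1 i3).1, (mem_Ico.1 i3).2, i5, i2, of_brk hl0 (hne _ (hmem _ i5)) j1 j2 i2⟩
  have hBc : ((B s.length t.length).image fun q => φ q.2 - 1 - q.1).card =
      brs Vs t l s.length t.length := by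
    rw [brs_eq_card, card_image_of_injOn]
    intro q hq q' hq' h
    obtain ⟨-, -, a1, -, a2, a3, a4⟩ := hBg _ _ q hq
    obtain ⟨-, -, b1, -, b2, b3, b4⟩ := hBg _ _ q' hq'
    simp only at h
    rw [h] at a3 a4
    have e1 : q.1 = q'.1 := by
      by_contra hc
      rcases Nat.lt_or_gt_of_ne hc with hc | hc
      · exact a4 (b3.mono hc)
      · exact b4 (a3.mono hc)
    exact Prod.ext e1 (hinj _ a1 _ b1 (by omega))
  obtain ⟨x₀, hx₀, hx₀'⟩ := exists_mem_notMem_of_card_lt_card
    (s := (B t.length N).image fun q => φ q.2 - 1 - q.1) (t := A.image fun i => φ i - t.length)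
    (by rw [hAc]; exact card_image_le.trans_lt (by rwa [← brs_eq_card]))
  have hx0 : Ag T t l x₀ t.length := by
    obtain ⟨i, hi, rfl⟩ := mem_image.1 hx₀
    exact (hAg i hi).2
  have hex : ∃ e, ¬ Ag T t l x₀ (e + 1) := ⟨T.length, fun h => by have := h.1; omega⟩
  obtain ⟨e₀, he1, he2, he3⟩ : ∃ e₀, t.length ≤ e₀ ∧ Ag T t l x₀ e₀ ∧ ¬ Ag T t l x₀ (e₀ + 1) := by
    have a1 := Nat.find_spec hex
    have a2 : t.length ≤ Nat.find hex := by
      by_contra hc
      exact a1 (hx0.mono (by omega))
    refine ⟨Nat.find hex, a2, ?_, a1⟩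
    have a3 := Nat.find_min hex (m := Nat.find hex - 1) (by omega)
    rw [show Nat.find hex - 1 + 1 = Nat.find hex by omega] at a3
    exact not_not.1 a3
  obtain ⟨m, e', hm, he4, he5⟩ : ∃ m e', e₀ = e' + m * l ∧ s.length ≤ e' ∧ e' < t.length := by
    have a1 := Nat.mod_add_div' (e₀ - s.length) l
    have a2 := Nat.mod_lt (e₀ - s.length) hl0
    exact ⟨(e₀ - s.length) / l, s.length + (e₀ - s.length) % l, by omega, by omega, by omega⟩
  have hs1 : Ag T t l (x₀ + m * l) e' := by
    refine ⟨by have := he2.1; omega, fun k hk => ?_⟩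
    have := he2.2 (k + m * l) (by omega)
    rw [Nat.add_mul_mod_self_right] at this
    rw [← this]; congr 1; omega
  have hs2 : ¬ Ag T t l (x₀ + m * l) (e' + 1) := by
    intro hc
    refine he3 ⟨by have := hc.1; omega, fun k hk => ?_⟩
    rcases Nat.lt_succ_iff_lt_or_eq.1 hk with hk | rfl
    · exact he2.2 k hk
    · have := hc.2 e' (by omega)
      rw [hm, Nat.add_mul_mod_self_right, ← this]; congr 1; omega
  have hn1 : x₀ + m * l ∉ A.image fun i => φ i - t.length := by
    intro hc
    obtain ⟨i, hi, e⟩ := mem_image.1 hc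
    have := (hAg i hi).2
    rw [e] at this
    exact hs2 (this.mono he5)
  have hn2 : x₀ + m * l ∉ (B s.length t.length).image fun q => φ q.2 - 1 - q.1 := by
    intro hc
    obtain ⟨q, hq, e⟩ := mem_image.1 hc
    obtain ⟨-, -, a1, a0, a2, a3, a4⟩ := hBg _ _ q hq
    rw [e] at a3 a4
    have e1 : q.1 = e' := by
      by_contra hc
      rcases Nat.lt_or_gt_of_ne hc with hc | hc
      · exact a4 (hs1.mono hc)
      · exact hs2 (a3.mono hc)
    obtain ⟨j1, j2⟩ := hφ q.2 a1
    have hV := hne _ (hmem _ a1)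
    have hVN := hN _ (hmem _ a1)
    obtain ⟨d1, d2, d3⟩ := dl hV j1 j2
    have e2 : φ q.2 - 1 = x₀ + e₀ := by omega
    rw [e2] at d2
    unfold brk at a0
    obtain ⟨-, b2, b3⟩ := of_decide_eq_true a0
    rw [e1, ← seg_per t l e' _ m, ← hm] at b3
    have b4 : e' % l = e₀ % l := by rw [hm, Nat.add_mul_mod_self_right]
    rw [e1, b4] at b2
    have hlen : e₀ < (Vs.getD q.2 []).length - 1 := by
      by_contra hc
      have c1 := seg_sf hl0 (not_lt.1 hc) he2
      refine b3 ((List.suffix_of_suffix_length_le d2 c1 ?_).eq_of_length ?_) <;>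
        simp [seg_length]
    have c2 : seg t l e₀ e₀ <:+ (Vs.getD q.2 []).dropLast :=
      List.suffix_of_suffix_length_le (seg_sf hl0 le_rfl he2) d2
        (by rw [seg_length, List.length_dropLast]; omega)
    refine hx₀' (mem_image.2 ⟨(e₀, q.2), mem_filter.2 ⟨mem_product.2
      ⟨mem_Ico.2 ⟨he1, by omega⟩, mem_range.2 a1⟩, ?_⟩, by simp only; omega⟩)
    unfold brk
    exact decide_eq_true ⟨c2, b2, b3⟩
  have hdis : Disjoint (A.image fun i => φ i - t.length)
      ((B s.length t.length).image fun q => φ q.2 - 1 - q.1) := by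
    rw [disjoint_left]
    intro x hx hx'
    obtain ⟨i, hi, e⟩ := mem_image.1 hx
    obtain ⟨q, hq, e'⟩ := mem_image.1 hx'
    obtain ⟨-, a0, -, -, -, -, a4⟩ := hBg _ _ q hq
    have := (hAg i hi).2
    rw [e] at this
    rw [e'] at a4
    exact a4 (this.mono a0)
  have hsub : insert (x₀ + m * l) ((A.image fun i => φ i - t.length) ∪
      (B s.length t.length).image fun q => φ q.2 - 1 - q.1) ⊆
      (range (T.length + 1)).filter fun x => Ag T t l x s.length := by
    have key : ∀ x e, s.length ≤ e → Ag T t l x e →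
        x ∈ (range (T.length + 1)).filter fun x => Ag T t l x s.length := fun x e he h =>
      mem_filter.2 ⟨mem_range.2 (by have := h.1; omega), h.mono he⟩
    intro x hx
    rcases mem_insert.1 hx with rfl | hx
    · exact key _ _ he4 hs1
    · rcases mem_union.1 hx with hx | hx
      · obtain ⟨i, hi, rfl⟩ := mem_image.1 hx
        exact key _ _ h1.le (hAg i hi).2
      · obtain ⟨q, hq, rfl⟩ := mem_image.1 hx
        obtain ⟨a0, -, -, -, -, a3, -⟩ := hBg _ _ q hq
        exact key _ _ a0 a3
  have := card_le_card hsub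
  rw [card_insert_of_notMem (by rw [mem_union, not_or]; exact ⟨hn1, hn2⟩),
    card_union_of_disjoint hdis, hAc, hBc] at this
  omega

theorem foldr_max_le (L : List ℕ) (b : ℕ) (h : ∀ x ∈ L, x ≤ b) : L.foldr max 0 ≤ b := by
  induction L with
  | nil => simp
  | cons a L ih =>
    rw [List.foldr_cons]
    exact max_le (h a List.mem_cons_self) (ih fun x hx => h x (List.mem_cons_of_mem _ hx))

end NEED

open NEED in
theorem NEED_proof : NeedStmt := by
  intro S T Vs s hE hne hN _ hs
  unfold need
  refine max_le (max_le ?_ ?_) (foldr_max_le _ _ fun x hx => ?_)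
  · obtain ⟨a, b, rfl⟩ := hs
    refine card_pos.2 ⟨(a ++ s).length, mem_filter.2 ⟨mem_range.2 (by simp), ?_⟩⟩
    rw [List.take_left]
    exact List.suffix_append _ _
  · obtain ⟨φ, hφ, hinj⟩ := hE
    have hmem : ∀ i < Vs.length, Vs.getD i [] ∈ Vs := fun i hi => by
      rw [List.getD_eq_getElem _ _ hi]; exact List.getElem_mem hi
    unfold cntD occ
    rw [countP_eq_card]
    refine card_le_card_of_injOn (fun i => φ i - 1) (fun i hi => ?_) (fun i hi j hj h => ?_)
    · obtain ⟨i1, i2⟩ := mem_filter.1 (mem_coe.1 hi)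
      obtain ⟨j1, j2⟩ := hφ i (mem_range.1 i1)
      obtain ⟨-, d2, -⟩ := dl (hne _ (hmem _ (mem_range.1 i1))) j1 j2
      exact mem_coe.2 (mem_filter.2 ⟨mem_range.2 (by simp only; omega),
        (of_decide_eq_true i2).trans d2⟩)
    · have i1 := mem_range.1 (mem_filter.1 (mem_coe.1 hi)).1
      have i2 := mem_range.1 (mem_filter.1 (mem_coe.1 hj)).1
      have d1 := (dl (hne _ (hmem _ i1)) (hφ i i1).1 (hφ i i1).2).1
      have d2 := (dl (hne _ (hmem _ i2)) (hφ j i2).1 (hφ j i2).2).1
      exact hinj i i1 j i2 (by simp only at h; omega)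
  · obtain ⟨t, -, rfl⟩ := List.mem_map.1 hx
    exact need1_le T Vs _ s t hE hne hN

end Crest.Agent.R287
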