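import Crest.Agent.R287.Stmts

/-! Row 287, task PTA: the algorithm runs in polynomial time. -/

set_option autoImplicit false

namespace Crest.Agent.R287

open Crest.Agent.PT Crest.Agent.QC Crest.Agent.R317

namespace PTA

variable {α β : Type} [Enc α] [Enc β]

@[fun_prop] theorem pt_tot {S : α → List Str} (hS : PT S) : PT (fun a => tot (S a)) := by
  unfold tot; fun_prop

@[fun_prop] theorem pt_subsLen {S : α → List Str} {n : α → ℕ} (hS : PT S) (hn : PT n) :
    PT (fun a => subsLen (S a) (n a)) := by
  unfold subsLen; fun_prop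

@[fun_prop] theorem pt_subs {S : α → List Str} (hS : PT S) : PT (fun a => subs (S a)) := by
  unfold subs; fun_prop

@[fun_prop] theorem pt_seg {t : α → Str} {l e n : α → ℕ} (ht : PT t) (hl : PT l) (he : PT e)
    (hn : PT n) : PT (fun a => seg (t a) (l a) (e a) (n a)) := by
  unfold seg; fun_prop

@[fun_prop] theorem pt_brk {t V : α → Str} {l e : α → ℕ} (ht : PT t) (hl : PT l) (he : PT e)
    (hV : PT V) : PT (fun a => brk (t a) (l a) (e a) (V a)) := by
  unfold brk
  exact pt_decide ((dt_suffix (by fun_prop) (by fun_prop)).and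
    ((dt_ne (by fun_prop) (by fun_prop)).and (dt_ne (by fun_prop) (by fun_prop))))

@[fun_prop] theorem pt_cnt {Vs : α → List Str} {s : α → Str} (hV : PT Vs) (hs : PT s) :
    PT (fun a => cnt (Vs a) (s a)) :=
  pt_countP (p := fun a V => decide (s a <:+ V)) hV (pt_decide (dt_suffix (by fun_prop) (by fun_prop)))

@[fun_prop] theorem pt_cntD {Vs : α → List Str} {s : α → Str} (hV : PT Vs) (hs : PT s) :
    PT (fun a => cntD (Vs a) (s a)) :=
  pt_countP (p := fun a (V : Str) => decide (s a <:+ V.dropLast)) hV
    (pt_decide (dt_suffix (by fun_prop) (by fun_prop)))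

@[fun_prop] theorem pt_brs {Vs : α → List Str} {t : α → Str} {l x y : α → ℕ} (hV : PT Vs)
    (ht : PT t) (hl : PT l) (hx : PT x) (hy : PT y) :
    PT (fun a => brs (Vs a) (t a) (l a) (x a) (y a)) :=
  pt_sum (pt_map (f := fun a k => (Vs a).countP (brk (t a) (l a) (x a + k))) (by fun_prop)
    (pt_countP (p := fun (q : α × ℕ) V => brk (t q.1) (l q.1) (x q.1 + q.2) V) (by fun_prop)
      (by fun_prop)))

@[fun_prop] theorem pt_need1 {N : α → ℕ} {Vs : α → List Str} {s t : α → Str} (hN : PT N)
    (hV : PT Vs) (hs : PT s) (ht : PT t) : PT (fun a => need1 (N a) (Vs a) (s a) (t a)) := by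
  unfold need1
  exact PT.iteD ((DT.lt (by fun_prop) (by fun_prop)).and ((dt_prefix hs ht).and
    ((dt_suffix hs ht).and (DT.lt (BT.ofPT (by fun_prop)) (BT.ofPT (by fun_prop)))))) (by fun_prop)
    (PT.const _)

@[fun_prop] theorem pt_need {S Vs : α → List Str} {s : α → Str} (hS : PT S) (hV : PT Vs)
    (hs : PT s) : PT (fun a => need (S a) (Vs a) (s a)) :=
  PT.max (by fun_prop) (pt_foldrMax (pt_map (f := fun a t => need1 (tot (S a)) (Vs a) (s a) t)
    (by fun_prop) (by fun_prop)))

@[fun_prop] theorem pt_step1 {S Vs : α → List Str} {s : α → Str} (hS : PT S) (hV : PT Vs)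
    (hs : PT s) : PT (fun a => step1 (S a) (Vs a) (s a)) := by
  unfold step1; fun_prop

theorem pt_toks : PT toks :=
  pt_foldl_add (s := fun S Vs s => step1 S Vs s) (pt_subs PT.id') (PT.const _) (by fun_prop)
    (C := fun q => tot q.1 * (2 * sz q.2 + 1)) (PT.pbNat (by fun_prop)) (fun S Vs s => by
      unfold step1
      rw [sz_append]
      refine Nat.add_le_add_left ((sz_list_le _ (sz s) (fun x hx => ?_)).trans
        (Nat.mul_le_mul_right _ (by simp))) _
      rw [List.eq_of_mem_replicate hx])

theorem pt_step2 : PT step2 := by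
  unfold step2
  have h1 : PT (fun st : List (List Str) × List (List Str) => st.1.tail.findIdx fun C =>
      decide (((st.1.headD []).headD []).dropLast <:+ C.getLastD [])) :=
    pt_findIdx (p := fun (st : List (List Str) × List (List Str)) (C : List Str) =>
      decide (((st.1.headD []).headD []).dropLast <:+ C.getLastD [])) (by fun_prop)
      (pt_decide (dt_suffix (by fun_prop) (by fun_prop)))
  exact PT.iteD (dt_eq (by fun_prop) (PT.const _)) PT.id'
    (PT.iteD (dt_suffix (by fun_prop) (by fun_prop)) (by fun_prop)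
      (PT.pair (pt_set (by fun_prop) h1 (pt_append (pt_getD (by fun_prop) h1 (PT.const _))
        (by fun_prop))) (by fun_prop)))

theorem sz_set_app (l : List (List β)) (i : ℕ) (x : List β) :
    sz (l.set i (l.getD i [] ++ x)) ≤ sz l + 2 * sz x := by
  induction l generalizing i with
  | nil => simp
  | cons y l ih =>
    cases i with
    | zero => simp only [List.set_cons_zero, List.getD_cons_zero, sz_cons, sz_append]; omega
    | succ i =>
      have := ih i
      simp only [List.set_cons_succ, List.getD_cons_succ, sz_cons]; omega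

theorem sz_step2 (st : List (List Str) × List (List Str)) : sz (step2 st) ≤ sz st := by
  obtain ⟨l, c⟩ := st
  unfold step2
  cases l with
  | nil => simp
  | cons x l =>
    rw [if_neg (List.cons_ne_nil _ _)]
    simp only [List.headD_cons, List.tail_cons]
    split_ifs
    · simp only [sz_pair, sz_cons]; omega
    · generalize (l.findIdx _) = i
      have := sz_set_app l i x
      simp only [sz_pair, sz_cons]; omega

theorem sz_iter_le {f : β → β} (h : ∀ x, sz (f x) ≤ sz x) (i : ℕ) (x : β) :
    sz (f^[i] x) ≤ sz x := by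
  induction i with
  | zero => exact le_rfl
  | succ i ih => rw [Function.iterate_succ_apply']; exact (h _).trans ih

theorem pt_cycles : PT cycles := by
  have h : PT (fun Vs : List Str => (Vs.map (fun V => [V]), ([] : List (List Str)))) := by fun_prop
  exact (PT.iter pt_step2 (pt_length PT.id') h h.pb (fun _ i _ => sz_iter_le sz_step2 i _)).snd

@[fun_prop] theorem pt_ov {x y : α → Str} (hx : PT x) (hy : PT y) : PT (fun a => ov (x a) (y a)) :=
  pt_foldrMax (pt_filter (p := fun a k => decide ((y a).take k <:+ x a)) (by fun_prop)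
    (pt_decide (dt_suffix (by fun_prop) (by fun_prop))))

@[fun_prop] theorem pt_dist {x y : α → Str} (hx : PT x) (hy : PT y) :
    PT (fun a => dist (x a) (y a)) := by
  unfold dist; fun_prop

@[fun_prop] theorem pt_pcost {x : α → Str} {R : α → List Str} (hx : PT x) (hR : PT R) :
    PT (fun a => pcost (x a) (R a)) := by
  unfold pcost; fun_prop

@[fun_prop] theorem pt_pspell {x : α → Str} {R : α → List Str} (hx : PT x) (hR : PT R) :
    PT (fun a => pspell (x a) (R a)) := by
  unfold pspell; fun_prop

@[fun_prop] theorem pt_verts {Z : α → List Str} (hZ : PT Z) : PT (fun a => verts (Z a)) := by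
  unfold verts; fun_prop

@[fun_prop] theorem pt_items {U : α → List (List Str)} (hU : PT U) : PT (fun a => items (U a)) := by
  unfold items; fun_prop

@[fun_prop] theorem pt_picks {q : α → Cand} (hq : PT q) : PT (fun a => picks (q a)) := by
  unfold picks; fun_prop

@[fun_prop] theorem pt_cands {Z : α → List Item} (hZ : PT Z) : PT (fun a => cands (Z a)) := by
  unfold cands; fun_prop

theorem pt_moves : PT moves := by
  unfold moves
  refine pt_flatMap (f := fun (st : St3) (q : Cand) =>
    (((List.range (st.1.length + 1)).map fun k => st.1.take k ++ (q.2.1 ++ st.1.drop k)).filter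
      fun R => decide (pcost [] R ≤ pcost [] st.1 + q.1)).map fun R => (R, q.2.2)) (by fun_prop) ?_
  refine pt_map (f := fun (r : St3 × Cand) R => (R, r.2.2.2)) ?_ (by fun_prop)
  exact pt_filter (p := fun (r : St3 × Cand) R => decide (pcost [] R ≤ pcost [] r.1.1 + r.2.1))
    (by fun_prop) (pt_decide (DT.le (BT.ofPT (by fun_prop)) (BT.ofPT (by fun_prop))))

theorem pt_step3 : PT step3 := pt_headD pt_moves PT.id'

theorem sz_eraseIdx (l : List β) (i : ℕ) (d : β) (hi : i < l.length) :
    sz (l.eraseIdx i) + 2 * sz (l.getD i d) ≤ sz l := by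
  induction l generalizing i with
  | nil => simp at hi
  | cons y l ih =>
    cases i with
    | zero => simp only [List.eraseIdx_cons_zero, List.getD_cons_zero, sz_cons]; omega
    | succ i =>
      have := ih i (by simpa using hi)
      simp only [List.eraseIdx_cons_succ, List.getD_cons_succ, sz_cons]; omega

/-- the measure of a candidate -/
def mu (q : Cand) : ℕ := 2 * sz q.2.1 + sz q.2.2

theorem mu_picks {q q' : Cand} (h : q' ∈ picks q) : mu q' ≤ mu q := by
  unfold picks at h
  obtain ⟨i, hi, h⟩ := List.mem_flatMap.1 h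
  obtain ⟨r, -, rfl⟩ := List.mem_map.1 h
  have h1 := sz_eraseIdx q.2.2 i (0, []) (List.mem_range.1 hi)
  have h2 := sz_perm (List.rotate_perm (q.2.2.getD i (0, [])).2 r)
  have h3 : sz (q.2.2.getD i (0, [])).2 ≤ sz (q.2.2.getD i (0, [])) := by
    generalize q.2.2.getD i (0, []) = z
    obtain ⟨z1, z2⟩ := z
    simp only [sz_pair]; omega
  simp only [mu, sz_append]
  omega

theorem mu_flat {L : List Cand} {B : ℕ} (h : ∀ q ∈ L, mu q ≤ B) :
    ∀ q ∈ L.flatMap picks, mu q ≤ B := by
  intro q hq
  obtain ⟨q', h1, h2⟩ := List.mem_flatMap.1 hq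
  exact (mu_picks h2).trans (h q' h1)

theorem mu_cands {Z : List Item} {q : Cand} (h : q ∈ cands Z) : mu q ≤ sz Z := by
  have h1 : ∀ q ∈ picks (0, [], Z), mu q ≤ sz Z := fun q hq =>
    (mu_picks hq).trans (by simp [mu])
  rcases List.mem_append.1 h with h | h
  · exact h1 q h
  · rcases List.mem_append.1 h with h | h
    · exact mu_flat h1 q h
    · exact mu_flat (mu_flat h1) q h

theorem sz_step3 (st : St3) : sz (step3 st) ≤ sz st := by
  have key : ∀ r ∈ moves st, sz r ≤ sz st := by
    intro r hr
    obtain ⟨q, hq, hr⟩ := List.mem_flatMap.1 hr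
    obtain ⟨R, hR, rfl⟩ := List.mem_map.1 hr
    obtain ⟨k, -, rfl⟩ := List.mem_map.1 (List.mem_filter.1 hR).1
    have h1 := mu_cands hq
    have h2 : sz (st.1.take k) + sz (st.1.drop k) = sz st.1 := by
      rw [← sz_append, List.take_append_drop]
    obtain ⟨s1, s2⟩ := st
    simp only [mu, sz_pair, sz_append] at *
    omega
  unfold step3
  cases h : moves st with
  | nil => exact le_rfl
  | cons r l => exact key r (by rw [h]; exact List.mem_cons_self)

theorem pt_final : PT final := by
  have h : PT (fun cy : List (List Str) => (([] : List Str), items cy)) := by fun_prop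
  exact PT.iter pt_step3 (pt_length PT.id') h h.pb (fun _ i _ => sz_iter_le sz_step3 i _)

end PTA

open PTA in
theorem PTA_proof : PtStmt :=
  pt_pspell (PT.const _) (pt_final.comp (pt_cycles.comp pt_toks)).fst

end Crest.Agent.R287
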