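import Crest.Agent.R287.Defs

/-! Row 287: the abstract system (tokens with a successor permutation) and the task statements. -/

set_option autoImplicit false

namespace Crest.Agent.R287

open Crest.Agent.PT

/-- the word of length `n` of `P` ending at `e` (exclusive) -/
def sw (P : ℤ → ℕ) (e : ℤ) (n : ℕ) : Str := (List.range n).map fun k : ℕ => P (e - n + k)

/-- the word of `P` on `[x, y)` -/
def iv (P : ℤ → ℕ) (x y : ℤ) : Str := sw P y (y - x).toNat

/-- `V` (last letter at position `e`) agrees with `P` on `[x,e)`, disagrees at `e` and before -/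
def Brk (P : ℤ → ℕ) (x e : ℤ) (V : Str) : Prop :=
  iv P x e <:+ V.dropLast ∧ V.getLastD 0 ≠ P e ∧ V.dropLast ≠ sw P e (V.length - 1)

open Classical in
/-- tokens `V i` with successor `σ`, cycle lengths `c`, rooted tokens `rt`, forced counts -/
structure Sys (I : Type) [Fintype I] where
  σ : Equiv.Perm I
  V : I → Str
  c : I → ℕ
  rt : I → Prop
  N : ℕ
  ne : ∀ i, V i ≠ []
  len : ∀ i, (V i).length ≤ N
  chain : ∀ i, (V (σ i)).dropLast <:+ V i
  cpos : ∀ i, 0 < c i
  cper : ∀ i, (σ ^ c i) i = i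
  cinv : ∀ i, c (σ i) = c i
  rinv : ∀ i, rt (σ i) ↔ rt i
  rule : ∀ (P : ℤ → ℕ) (l : ℕ) (x y : ℤ), 0 < l → (∀ z, P (z + l) = P z) → x + l < y →
    (∑ e ∈ Finset.Ico y (x + N), (Finset.univ.filter fun i => Brk P x e (V i)).card) <
      (Finset.univ.filter fun i => iv P x y <:+ V i).card →
    (Finset.univ.filter fun i => iv P x y <:+ V i).card + 1 +
        ∑ e ∈ Finset.Ico (y - l) y, (Finset.univ.filter fun i => Brk P x e (V i)).card ≤
      (Finset.univ.filter fun i => iv P x (y - l) <:+ V i).card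

namespace Sys

variable {I : Type} [Fintype I] (A : Sys I)

/-- staircase `(j, e)`: token `j` has right end `e`; `tk j e y` is its token with right end `y` -/
def tk (j : I) (e y : ℤ) : Str := A.V ((A.σ ^ (y - e)) j)

/-- the two-sided word of the staircase -/
def wd (j : I) (e z : ℤ) : ℕ := (A.tk j e (z + 1)).getLastD 0

/-- left end of the token with right end `y` -/
def lf (j : I) (e y : ℤ) : ℤ := y - (A.tk j e y).length

/-- `w` is a vertex of the walk between token `i` and its successor -/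
def Vert (i : I) (w : Str) : Prop := (A.V (A.σ i)).dropLast <:+ w ∧ w <:+ A.V i

def Move : Prop :=
  (∃ i w, ¬ A.rt i ∧ A.Vert i w ∧ w.length ≤ A.c i) ∨
  (∃ i j w w', ¬ A.rt i ∧ A.rt j ∧ A.Vert i w ∧ A.Vert j w' ∧ dist w' w + dist w w' ≤ A.c i) ∨
  (∃ i j w w', ¬ A.rt i ∧ ¬ A.rt j ∧ ¬ A.σ.SameCycle i j ∧ A.Vert i w ∧ A.Vert j w' ∧
    w.length + dist w w' ≤ A.c i + A.c j) ∨
  (∃ i j k w w' w'', ¬ A.rt i ∧ ¬ A.rt j ∧ ¬ A.rt k ∧ ¬ A.σ.SameCycle i j ∧ ¬ A.σ.SameCycle i k ∧
    ¬ A.σ.SameCycle j k ∧ A.Vert i w ∧ A.Vert j w' ∧ A.Vert k w'' ∧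
    w.length + dist w w' + dist w' w'' ≤ A.c i + A.c j + A.c k)

end Sys

/-- NEED. `1 ≤ occ` as `s <:+: T`; `cntD ≤ occ` by `i ↦ φ i - 1`.  For `need1 .. s t` (with the
condition true): `l = |t|-|s|`, `p k = t.getD (k % l) 0`, so `t = seg t l |t| |t|`, `s = seg t l |s| |s|`,
`seg t l (e+l) n = seg t l e n`.  Three disjoint families of right ends `y` with `s <:+ T.take y`:
(1) `φ i - l` for `t <:+ Vs[i]`; (2) `φ i - 1 - (e - |s|)` for `brk t l e Vs[i]`, `|s| ≤ e < |t|`
(injective in `(i,e)`: from `y` on, `T` follows `p` at positions `|s|, …, e-1` and differs at `e`, so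
`e` is determined, then `φ i`; disjoint from (1), where `T` follows `p` up to `|t|`); (3) one more:
by the condition and pigeonhole some `i₀` with `t <:+ Vs[i₀]` has `φ i₀ ≠ φ i - 1 - (e - |t|)` for all
`brk t l e Vs[i]`, `|t| ≤ e < tot S`.  Let `T` follow `p` from `φ i₀` (position `|t|`) up to position
`e₀ ≥ |t|` exactly (mismatch or end of `T`), `n ≥ 1` with `|s| ≤ e₀ - n l < |t|`, `y₀ = φ i₀ + (n-1) l`.
`y₀` is not in (1) (`T` follows `p` for fewer than `l` letters after `y₀`) and not in (2): otherwise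
`brk t l (e₀ - n l) V` with `φ V = φ i₀ + (e₀-|t|) + 1`; as `V.dropLast ≠ seg ..` and `T` agrees with `p`
on the `e₀` letters before, `|V| - 1 > e₀`, so `brk t l e₀ V`, `e₀ < tot S`: contradiction. -/
def NeedStmt : Prop :=
  ∀ (S : List Str) (T : Str) (Vs : List Str) (s : Str), Emb T Vs → (∀ V ∈ Vs, V ≠ []) →
    (∀ V ∈ Vs, V.length ≤ tot S) → s ≠ [] → s <:+: T → need S Vs s ≤ occ T s

/-- EXT. A used right end `φ i` with `s <:+ T.take (φ i)` has `s <:+ Vs[i]` (two suffixes, lengths), so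
at least `occ - cnt ≥ k` right ends of occurrences of `s` are free. -/
def ExtStmt : Prop :=
  ∀ (T : Str) (Vs : List Str) (s : Str) (k : ℕ), Emb T Vs → (∀ V ∈ Vs, s.length ≤ V.length) →
    k + cnt Vs s ≤ occ T s → Emb T (Vs ++ List.replicate k s)

/-- TOK (from NEED, EXT). `subs S` is sorted by decreasing length, its members are exactly the nonempty
factors of members of `S`.  Fold invariant: tokens are members of the processed prefix, sorted, `Emb T`
for every superstring `T`; with `T = S.flatten` the clamp `min _ (tot S)` is inactive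
(`occ T s ≤ |T|` for `s ≠ []`), so `need S Vs s ≤ cnt Vs' s` after the step for `s`; `cntD _ s`,
`cnt _ t`, `brs _ t l a b` (`|s| ≤ a`, `|s| < |t|`) only count tokens longer than `s`, so they never change
afterwards and `cnt _ s` only grows. `bal` for `s = []` is trivial, for a non-factor `cntD = 0`. -/
def TokStmt : Prop :=
  ∀ S : List Str, Forced S (tot S) (toks S) ∧
    (toks S).Pairwise (fun a b => b.length ≤ a.length) ∧
    ∀ T : Str, (∀ s ∈ S, s <:+: T) → (toks S).length ≤ T.length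

/-- CYC. Invariant of `step2`: open chains are nonempty chains (`IsChain`, `dropLast` of next `<:+`
current) with heads sorted by decreasing length, closed ones are `Cyc`, the flattening of both is a
permutation of `Vs`, and for every `w`: #{open C : w <:+ dropLast (head C)} ≤ #{open C : w <:+ last C}.
With `w₀ = dropLast` of the first (longest) head some open chain has `w₀ <:+ last`. After the step: if
`w <:+ w₀` both sides lose one; otherwise, if the right side loses one then `|w| > |w₀|` and the left side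
is `0`. Each step removes one open chain. -/
def CycStmt : Prop :=
  ∀ Vs : List Str, (∀ V ∈ Vs, V ≠ []) → Vs.Pairwise (fun a b => b.length ≤ a.length) →
    (∀ s, cntD Vs s ≤ cnt Vs s) → (cycles Vs).flatten.Perm Vs ∧ ∀ Z ∈ cycles Vs, Cyc Z

/-- DST: overlaps, distances, path costs. -/
structure DistStmt : Prop where
  le_of_take : ∀ (a b : Str) (k : ℕ), b.take k <:+ a → dist a b ≤ b.length - k
  le_len : ∀ a b : Str, dist a b ≤ b.length
  nil : ∀ b : Str, dist [] b = b.length
  tri : ∀ a b c : Str, dist a c ≤ dist a b + dist b c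
  suf : ∀ a b : Str, b <:+ a → dist a b = 0
  one : ∀ a b : Str, b.dropLast <:+ a → dist a b ≤ 1
  pnil : ∀ a : Str, pcost a [] = 0
  pcons : ∀ (a b : Str) (R : List Str), pcost a (b :: R) = dist a b + pcost b R
  papp : ∀ (a : Str) (R R' : List Str), pcost a (R ++ R') = pcost a R + pcost (R.getLastD a) R'
  slen : ∀ (a : Str) (R : List Str), (pspell a R).length = pcost a R
  sinf : ∀ (a : Str) (R : List Str), ∀ v ∈ R, v <:+: a ++ pspell a R

/-- VERT (from DST): the vertex list of a cycle; its cyclic cost is at most the number of tokens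
(steps inside a block cost 0, the step to the next block costs at most 1). -/
def VertStmt : Prop :=
  ∀ Z : List Str, Cyc Z → (∀ V ∈ Z, V ≠ []) →
    (∀ w, w ∈ verts Z ↔ ∃ p < Z.length,
      (Z.getD ((p + 1) % Z.length) []).dropLast <:+ w ∧ w <:+ Z.getD p []) ∧
    ∀ w ∈ verts Z, ∃ r < (verts Z).length, ∃ L, (verts Z).rotate r = w :: L ∧
      pcost w (L ++ [w]) ≤ Z.length

/-- MV (from DST, VERT). Second case: insert the rotation right after an occurrence of `w'` in `R`;
other cases: insert the rotations at the end of `R` (`k = |R|`); triangle inequality. After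
`eraseIdx i` the index `j` becomes `if j < i then j else j - 1`. -/
def MvStmt : Prop :=
  ∀ (U Rt : List (List Str)) (R : List Str), (∀ Z ∈ U, Cyc Z ∧ ∀ V ∈ Z, V ≠ []) →
    (∀ Z ∈ Rt, ∀ w ∈ verts Z, w ∈ R) → MoveL U Rt → moves (R, items U) ≠ []

/-- FIN. Invariant of `step3`; a candidate `q ∈ cands (items U)` has `U ~ U' ++ B`, `B ≠ []`,
`q.2.2 = items U'`, `q.1 = 2 * B.flatten.length`, all `verts` of members of `B` in `q.2.1`. A step either
is a fixed point with no moves or shortens the second component. -/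
def FinStmt : Prop :=
  ∀ cy : List (List Str), ∃ U Rt : List (List Str), cy.Perm (U ++ Rt) ∧ (final cy).2 = items U ∧
    (∀ Z ∈ Rt, ∀ w ∈ verts Z, w ∈ (final cy).1) ∧
    pcost [] (final cy).1 + 2 * U.flatten.length ≤ 2 * cy.flatten.length ∧ moves (final cy) = []

/-- the abstract core (lead) -/
def CoreStmt : Prop :=
  ∀ (I : Type) [Fintype I] (A : Sys I) (i₀ : I), ¬ A.rt i₀ →
    (∀ j, A.V i₀ <:+: A.V j → (A.V j).length ≤ (A.V i₀).length) → A.Move

/-- BRG (from VERT, CORE). `I = Σ k : Fin (U ++ Rt).length, Fin ((U ++ Rt).get k).length`,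
`σ = Equiv.sigmaCongrRight fun _ => finRotate _`, `rt ⟨k,_⟩ := U.length ≤ k`; `rule` from `Forced.per` with
`t = iv P x y`, `s = iv P x (y-l)`, `seg t l e n = sw P (x+e) n`; take for `i₀` a longest token having
`s` as a factor. -/
def CoreLStmt : Prop :=
  ∀ (S : List Str) (N : ℕ) (U Rt : List (List Str)), Forced S N (U ++ Rt).flatten →
    (∀ Z ∈ U ++ Rt, Cyc Z) → ∀ s ∈ S, s ≠ [] → (∃ Z ∈ Rt, ∃ V ∈ Z, s <:+: V) ∨ MoveL U Rt

/-- ACOV (A-cover; uses `R287/Bas.lean`). Let `m` be the number of tokens ending with `iv P x y`. The map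
`(e, i) ↦ σ^(-(1 + e - y)) i` on pairs with `Brk P x e (V i)`, `y ≤ e`, is injective into those tokens
and misses `j₀` (whose word is `P`), so the hypothesis of `rule` holds. By `rule` and pigeonhole some `j`
with `iv P x (y-l) <:+ V j` is neither `σ^(-l) i` with `iv P x y <:+ V i` nor `σ^(-(1 + e - (y-l))) i` with
`Brk P x e (V i)`, `y - l ≤ e < y`. If `lf (Y+1) < X` then `Brk P x Y (tk j (y-l) (Y+1))`; `Y < y` is
excluded directly, `y ≤ Y` gives `iv P x y <:+ tk j (y-l) y`. -/
def AcovStmt : Prop :=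
  ∀ (I : Type) [Fintype I] (A : Sys I) (P : ℤ → ℕ) (l : ℕ) (x y : ℤ) (j₀ : I), 0 < l →
    (∀ z, P (z + l) = P z) → x + l < y → A.wd j₀ y = P → A.lf j₀ y y ≤ x →
    ∃ j : I, A.lf j (y - l) (y - l) ≤ x ∧ (∀ z, x ≤ z → z < y - l → A.wd j (y - l) z = P z) ∧
      ¬ (A.lf j (y - l) y ≤ x ∧ ∀ z, x ≤ z → z < y → A.wd j (y - l) z = P z) ∧
      ∀ X Y : ℤ, X ≤ x → y - l ≤ Y → (∀ z, X ≤ z → z < Y → A.wd j (y - l) z = P z) →
        A.wd j (y - l) (X - 1) ≠ P (X - 1) → A.wd j (y - l) Y ≠ P Y → X ≤ A.lf j (y - l) (Y + 1)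

/-- PTA -/
def PtStmt : Prop := PT algo

end Crest.Agent.R287
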