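import Crest.Agent.R287.Stmts

/-! Row 287, TOK: the guarantees of phase 1. -/

set_option autoImplicit false

namespace Crest.Agent.R287

namespace TOK

theorem len_le_tot {S : List Str} {s : Str} (hs : s ∈ S) : s.length ≤ tot S :=
  (List.sublist_flatten_of_mem hs).length_le

theorem mem_subsLen {S : List Str} {n : ℕ} {w : Str} :
    w ∈ subsLen S n ↔ w.length = n ∧ ∃ s ∈ S, w <:+: s := by
  unfold subsLen
  simp only [List.mem_flatMap, List.mem_map, List.mem_range]
  constructor
  · rintro ⟨s, hs, i, hi, rfl⟩
    refine ⟨by simp; omega, s, hs, ?_⟩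
    exact (List.take_prefix _ _).isInfix.trans (List.drop_suffix _ _).isInfix
  · rintro ⟨rfl, s, hs, a, b, rfl⟩
    refine ⟨_, hs, a.length, by simp; omega, ?_⟩
    simp

theorem mem_subs {S : List Str} {w : Str} : w ∈ subs S ↔ w ≠ [] ∧ ∃ s ∈ S, w <:+: s := by
  unfold subs
  simp only [List.mem_flatMap, List.mem_range, mem_subsLen]
  constructor
  · rintro ⟨k, hk, hl, h⟩
    refine ⟨?_, h⟩
    rintro rfl
    simp at hl; omega
  · rintro ⟨hne, s, hs, h⟩
    have h1 := h.length_le
    have h2 := len_le_tot hs
    have h3 := List.length_pos_iff.2 hne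
    exact ⟨tot S - w.length, by omega, by omega, s, hs, h⟩

theorem sorted_subs (S : List Str) : (subs S).Pairwise (fun a b => b.length ≤ a.length) := by
  unfold subs
  rw [List.pairwise_flatMap]
  constructor
  · intro k _
    refine List.pairwise_of_forall_mem_list (fun a ha b hb => ?_)
    rw [(mem_subsLen.1 ha).1, (mem_subsLen.1 hb).1]
  · refine List.pairwise_lt_range.imp (fun {a b} hab x hx y hy => ?_)
    rw [(mem_subsLen.1 hx).1, (mem_subsLen.1 hy).1]
    omega

theorem countP_app {Vs : List Str} {p : Str → Bool} {k : ℕ} {s : Str} (h : p s = false) :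
    (Vs ++ List.replicate k s).countP p = Vs.countP p := by
  rw [List.countP_append, List.countP_replicate, h]
  simp

theorem cnt_app {Vs : List Str} {k : ℕ} {s t : Str} (h : s.length < t.length) :
    cnt (Vs ++ List.replicate k s) t = cnt Vs t := by
  unfold cnt
  refine countP_app (decide_eq_false fun h' => ?_)
  have := h'.length_le
  omega

theorem cntD_app {Vs : List Str} {k : ℕ} {s t : Str} (hs : s ≠ []) (h : s.length ≤ t.length) :
    cntD (Vs ++ List.replicate k s) t = cntD Vs t := by
  unfold cntD
  refine countP_app (decide_eq_false fun h' => ?_)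
  have := h'.length_le
  have h3 := List.length_pos_iff.2 hs
  simp only [List.length_dropLast] at this
  omega

theorem brs_app {Vs : List Str} {k : ℕ} {s t : Str} {l a b : ℕ} (hs : s ≠ []) (h : s.length ≤ a) :
    brs (Vs ++ List.replicate k s) t l a b = brs Vs t l a b := by
  unfold brs
  congr 1
  refine List.map_congr_left (fun j _ => countP_app (decide_eq_false fun h' => ?_))
  have := h'.1.length_le
  have h3 := List.length_pos_iff.2 hs
  simp only [List.length_dropLast, seg, List.length_map, List.length_range] at this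
  omega

theorem need_app {S Vs : List Str} {k : ℕ} {s s' : Str} (hs : s ≠ []) (h : s.length ≤ s'.length) :
    need S (Vs ++ List.replicate k s) s' = need S Vs s' := by
  unfold need
  rw [cntD_app hs h]
  congr 2
  refine List.map_congr_left (fun t _ => ?_)
  unfold need1
  by_cases ht : s'.length < t.length
  · rw [cnt_app (by omega), brs_app hs (by omega), brs_app hs h]
  · rw [if_neg (fun h' => ht h'.1), if_neg (fun h' => ht h'.1)]

theorem occ_le {T s : Str} (hs : s ≠ []) : occ T s ≤ T.length := by
  unfold occ
  calc _ ≤ (Finset.Icc 1 T.length).card := by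
        refine Finset.card_le_card (fun y hy => ?_)
        obtain ⟨h1, h2⟩ := Finset.mem_filter.1 hy
        have h3 := h2.length_le
        have h4 := List.length_pos_iff.2 hs
        simp only [List.length_take, Finset.mem_range] at h1 h3
        exact Finset.mem_Icc.2 ⟨by omega, by omega⟩
    _ = _ := by simp

theorem emb_len {T : Str} {Vs : List Str} (h : Emb T Vs) (hne : ∀ V ∈ Vs, V ≠ []) :
    Vs.length ≤ T.length := by
  obtain ⟨φ, h1, h2⟩ := h
  have := Finset.card_le_card_of_injOn (s := Finset.range Vs.length) (t := Finset.Icc 1 T.length) φ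
    (fun i hi => by
      have hi' : i < Vs.length := by simpa using hi
      obtain ⟨a, b⟩ := h1 i hi'
      have h3 := b.length_le
      have h4 : Vs.getD i [] ≠ [] := by
        rw [List.getD_eq_getElem _ _ hi']; exact hne _ (List.getElem_mem _)
      have h5 := List.length_pos_iff.2 h4
      simp only [List.length_take] at h3
      simp only [Finset.coe_Icc, Set.mem_Icc]
      omega)
    (fun i hi j hj e => h2 i (by simpa using hi) j (by simpa using hj) e)
  simpa using this

theorem le_foldr_max {l : List ℕ} {a : ℕ} (h : a ∈ l) : a ≤ l.foldr max 0 := by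
  induction l with
  | nil => simp at h
  | cons b l ih =>
    rw [List.foldr_cons]
    rcases List.mem_cons.1 h with rfl | h
    · exact le_max_left _ _
    · exact (ih h).trans (le_max_right _ _)

theorem inv (hNeed : NeedStmt) (hExt : ExtStmt) (S : List Str) (L : List Str) :
    L.Pairwise (fun a b => b.length ≤ a.length) → (∀ s ∈ L, s ∈ subs S) →
    (∀ V ∈ L.foldl (step1 S) [], V ∈ L) ∧
    (L.foldl (step1 S) []).Pairwise (fun a b => b.length ≤ a.length) ∧
    (∀ T : Str, (∀ s ∈ S, s <:+: T) → Emb T (L.foldl (step1 S) [])) ∧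
    ∀ s ∈ L, need S (L.foldl (step1 S) []) s ≤ cnt (L.foldl (step1 S) []) s := by
  induction L using List.reverseRecOn with
  | nil =>
    intro _ _
    refine ⟨by simp, by simp, fun T _ => ⟨fun _ => 0, by simp, by simp⟩, by simp⟩
  | append_singleton L s ih =>
    intro hp hm
    rw [List.pairwise_append] at hp
    obtain ⟨hp1, -, hp2⟩ := hp
    obtain ⟨i1, i2, i3, i4⟩ := ih hp1 (fun w hw => hm w (List.mem_append_left _ hw))
    rw [List.foldl_append, List.foldl_cons, List.foldl_nil]
    generalize L.foldl (step1 S) [] = Vs at i1 i2 i3 i4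
    obtain ⟨hs, w, hw, hsw⟩ := mem_subs.1 (hm s (by simp))
    have hge : ∀ V ∈ Vs, s.length ≤ V.length := fun V hV => hp2 V (i1 V hV) s (by simp)
    have hne : ∀ V ∈ Vs, V ≠ [] := fun V hV =>
      (mem_subs.1 (hm V (List.mem_append_left _ (i1 V hV)))).1
    have hlen : ∀ V ∈ Vs, V.length ≤ tot S := fun V hV => by
      obtain ⟨-, u, hu, h⟩ := mem_subs.1 (hm V (List.mem_append_left _ (i1 V hV)))
      exact h.length_le.trans (len_le_tot hu)
    have hocc : ∀ T : Str, (∀ s ∈ S, s <:+: T) → need S Vs s ≤ occ T s := fun T hT =>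
      hNeed S T Vs s (i3 T hT) hne hlen hs (hsw.trans (hT w hw))
    have htot : need S Vs s ≤ tot S :=
      (hocc S.flatten (fun u hu => List.infix_of_mem_flatten hu)).trans (occ_le hs)
    unfold step1
    rw [min_eq_left (by omega)]
    refine ⟨fun V hV => ?_, ?_, fun T hT => ?_, fun s' hs' => ?_⟩
    · rcases List.mem_append.1 hV with h | h
      · exact List.mem_append_left _ (i1 V h)
      · rw [List.eq_of_mem_replicate h]; simp
    · rw [List.pairwise_append]
      refine ⟨i2, List.pairwise_of_forall_mem_list (fun a ha b hb => ?_), fun a ha b hb => ?_⟩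
      · rw [List.eq_of_mem_replicate ha, List.eq_of_mem_replicate hb]
      · rw [List.eq_of_mem_replicate hb]; exact hge a ha
    · rcases Nat.eq_zero_or_pos (need S Vs s - cnt Vs s) with h | h
      · rw [h]; simpa using i3 T hT
      · have := hocc T hT
        exact hExt T Vs s _ (i3 T hT) hge (by omega)
    · rcases List.mem_append.1 hs' with h | h
      · rw [need_app hs (hp2 s' h s (by simp))]
        refine (i4 s' h).trans ?_
        unfold cnt
        rw [List.countP_append]; omega
      · obtain rfl : s' = s := by simpa using h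
        rw [need_app hs le_rfl]
        have : cnt (Vs ++ List.replicate (need S Vs s' - cnt Vs s') s') s' =
            cnt Vs s' + (need S Vs s' - cnt Vs s') := by
          conv_lhs => unfold cnt
          rw [List.countP_append, List.countP_replicate]
          simp [cnt]
        omega

end TOK

open TOK in
theorem TOK_proof (hNeed : NeedStmt) (hExt : ExtStmt) : TokStmt := by
  intro S
  obtain ⟨i1, i2, i3, i4⟩ := inv hNeed hExt S (subs S) (sorted_subs S) (fun _ h => h)
  change ∀ V ∈ toks S, V ∈ subs S at i1
  change ∀ T : Str, (∀ s ∈ S, s <:+: T) → Emb T (toks S) at i3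
  change ∀ s ∈ subs S, need S (toks S) s ≤ cnt (toks S) s at i4
  have hne : ∀ V ∈ toks S, V ≠ [] := fun V hV => (mem_subs.1 (i1 V hV)).1
  have hsub : ∀ V ∈ toks S, ∀ s : Str, s ≠ [] → s <:+: V → s ∈ subs S := by
    intro V hV s hs h
    obtain ⟨-, u, hu, h'⟩ := mem_subs.1 (i1 V hV)
    exact mem_subs.2 ⟨hs, u, hu, h.trans h'⟩
  refine ⟨⟨hne, fun V hV => ?_, fun s hs hs' => ?_, fun s => ?_, fun s t hs hl hp hsuf hlt => ?_⟩,
    i2, fun T hT => emb_len (i3 T hT) hne⟩
  · obtain ⟨-, u, hu, h⟩ := mem_subs.1 (i1 V hV)
    exact h.length_le.trans (len_le_tot hu)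
  · have h1 := i4 s (mem_subs.2 ⟨hs', s, hs, List.infix_refl _⟩)
    have h2 : 0 < cnt (toks S) s := by
      unfold need at h1; omega
    obtain ⟨V, hV, h⟩ := List.countP_pos_iff.1 h2
    exact ⟨V, hV, by simpa using h⟩
  · by_cases hs : s = []
    · subst hs
      simp [cnt, cntD]
    · rcases Nat.eq_zero_or_pos (cntD (toks S) s) with h | h
      · omega
      · obtain ⟨V, hV, h'⟩ := List.countP_pos_iff.1 h
        have h1 := i4 s (hsub V hV s hs
          ((of_decide_eq_true h').isInfix.trans (List.dropLast_prefix V).isInfix))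
        unfold need at h1; omega
  · obtain ⟨V, hV, h'⟩ := List.countP_pos_iff.1 (show 0 < cnt (toks S) t by omega)
    have htV : t <:+ V := of_decide_eq_true h'
    have ht : t ∈ subs S := hsub V hV t (by rintro rfl; simp at hl) htV.isInfix
    have h1 := i4 s (hsub V hV s hs (hsuf.trans htV).isInfix)
    have h2 := le_foldr_max (List.mem_map_of_mem (f := need1 (tot S) (toks S) s) ht)
    have h3 : need1 (tot S) (toks S) s t =
        cnt (toks S) t + 1 + brs (toks S) t (t.length - s.length) s.length t.length := by
      unfold need1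
      rw [if_pos ⟨hl, hp, hsuf, hlt⟩]
    unfold need at h1
    omega

end Crest.Agent.R287
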