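import Crest.Agent.R287.Stmts

/-! Row 287, task VERT: the vertex list of a cycle of tokens. -/

set_option autoImplicit false

namespace Crest.Agent.R287

namespace VERT

/-- one block of `verts` -/
def blk (Z : List Str) (p : ℕ) : List Str :=
  (List.range ((Z.getD p []).length - ((Z.getD ((p + 1) % Z.length) []).length - 1) + 1)).map
    fun k => (Z.getD p []).drop k

theorem verts_eq (Z : List Str) : verts Z = (List.range Z.length).flatMap (blk Z) := rfl

theorem getLastD_drops (V : Str) (K : ℕ) (x : Str) :
    ((List.range (K + 1)).map fun k => V.drop k).getLastD x = V.drop K := by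
  rw [List.range_succ, List.map_append]
  simp

theorem pcost_drops (hD : DistStmt) (V : Str) (K : ℕ) (x : Str) (h : V.dropLast <:+ x) :
    pcost x ((List.range (K + 1)).map fun k => V.drop k) ≤ 1 := by
  induction K with
  | zero =>
    have := hD.one x V h
    simpa [hD.pcons, hD.pnil] using this
  | succ K ih =>
    rw [List.range_succ, List.map_append, hD.papp, getLastD_drops, List.map_singleton, hD.pcons,
      hD.pnil, hD.suf _ _ (List.drop_suffix_drop_left V (Nat.le_succ K))]
    omega

theorem mem_blk (Z : List Str) (p : ℕ)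
    (h : (Z.getD ((p + 1) % Z.length) []).dropLast <:+ Z.getD p []) (w : Str) :
    w ∈ blk Z p ↔ (Z.getD ((p + 1) % Z.length) []).dropLast <:+ w ∧ w <:+ Z.getD p [] := by
  unfold blk
  generalize Z.getD ((p + 1) % Z.length) [] = W at h ⊢
  generalize Z.getD p [] = V at h ⊢
  have hl := h.length_le
  rw [List.length_dropLast] at hl
  rw [List.mem_map]
  constructor
  · rintro ⟨k, hk, rfl⟩
    rw [List.mem_range] at hk
    refine ⟨List.suffix_of_suffix_length_le h (List.drop_suffix _ _) ?_, List.drop_suffix _ _⟩
    rw [List.length_dropLast, List.length_drop]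
    omega
  · rintro ⟨h1, h2⟩
    have l1 := h1.length_le
    have l2 := h2.length_le
    rw [List.length_dropLast] at l1
    exact ⟨V.length - w.length, List.mem_range.2 (by omega), (List.suffix_iff_eq_drop.1 h2).symm⟩

theorem last_blk (Z : List Str) (p : ℕ)
    (h : (Z.getD ((p + 1) % Z.length) []).dropLast <:+ Z.getD p []) (X : List Str) (x : Str) :
    (Z.getD ((p + 1) % Z.length) []).dropLast <:+ (X ++ blk Z p).getLastD x := by
  have e : (X ++ blk Z p).getLastD x = (blk Z p).getLastD (X.getLastD x) := by
    generalize blk Z p = Y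
    induction X generalizing x with
    | nil => rfl
    | cons y X ih => rw [List.cons_append, List.getLastD_cons, List.getLastD_cons, ih]
  rw [e]
  refine ((mem_blk Z p h _).1 ?_).1
  unfold blk
  rw [getLastD_drops]
  exact List.mem_map.2 ⟨_, List.mem_range.2 (Nat.lt_succ_self _), rfl⟩

theorem pcost_pref (hD : DistStmt) (Z : List Str) (hZ : Cyc Z) (a : Str)
    (ha : (Z.getD 0 []).dropLast <:+ a) (m : ℕ) (hm : m ≤ Z.length) :
    pcost a ((List.range m).flatMap (blk Z)) ≤ m := by
  induction m with
  | zero => simp [hD.pnil]
  | succ m ih =>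
    rw [List.range_succ, List.flatMap_append, hD.papp, List.flatMap_singleton]
    have h1 := ih (by omega)
    have h2 : (Z.getD m []).dropLast <:+ ((List.range m).flatMap (blk Z)).getLastD a := by
      cases m with
      | zero => simpa using ha
      | succ m =>
        rw [List.range_succ, List.flatMap_append, List.flatMap_singleton]
        have := last_blk Z m (hZ.2 m (by omega)) ((List.range m).flatMap (blk Z)) a
        rwa [Nat.mod_eq_of_lt (by omega)] at this
    have h3 := pcost_drops hD (Z.getD m [])
      ((Z.getD m []).length - ((Z.getD ((m + 1) % Z.length) []).length - 1)) _ h2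
    have h4 : pcost (((List.range m).flatMap (blk Z)).getLastD a) (blk Z m) ≤ 1 := h3
    omega

theorem pcost_all (hD : DistStmt) (Z : List Str) (hZ : Cyc Z) :
    pcost ((verts Z).getLastD []) (verts Z) ≤ Z.length := by
  refine pcost_pref hD Z hZ _ ?_ _ le_rfl
  obtain ⟨m, hm⟩ : ∃ m, Z.length = m + 1 :=
    Nat.exists_eq_succ_of_ne_zero (by have := List.length_pos_iff.2 hZ.1; omega)
  have := last_blk Z m (hZ.2 m (by omega)) ((List.range m).flatMap (blk Z)) []
  rw [← hm, Nat.mod_self] at this
  rw [verts_eq]
  conv_rhs => rw [hm, List.range_succ, List.flatMap_append, List.flatMap_singleton]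
  exact this

end VERT

theorem VERT_proof (hD : DistStmt) : VertStmt := by
  intro Z hZ _
  refine ⟨fun w => ?_, fun w hw => ?_⟩
  · rw [VERT.verts_eq, List.mem_flatMap]
    constructor
    · rintro ⟨p, hp, h⟩
      rw [List.mem_range] at hp
      exact ⟨p, hp, (VERT.mem_blk Z p (hZ.2 p hp) w).1 h⟩
    · rintro ⟨p, hp, h⟩
      exact ⟨p, List.mem_range.2 hp, (VERT.mem_blk Z p (hZ.2 p hp) w).2 h⟩
  · have h := VERT.pcost_all hD Z hZ
    obtain ⟨A, B, e⟩ := List.append_of_mem hw
    rw [e] at h ⊢
    refine ⟨A.length, by simp, B ++ A, ?_, ?_⟩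
    · rw [List.rotate_append_length_eq]; rfl
    · have e1 : (A ++ w :: B).getLastD [] = B.getLastD w := by
        generalize ([] : Str) = x
        clear e h
        induction A generalizing x with
        | nil => rw [List.nil_append, List.getLastD_cons]
        | cons y A ih => rw [List.cons_append, List.getLastD_cons, ih]
      have e2 : A ++ w :: B = (A ++ [w]) ++ B := by simp
      rw [e1, e2, hD.papp] at h
      rw [List.append_assoc, hD.papp]
      have e3 : (A ++ [w]).getLastD (B.getLastD w) = w := by simp
      rw [e3] at h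
      omega

end Crest.Agent.R287
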