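import Crest.Agent.R287.Lib

/-!
Row 287: input and output. The symbols are renamed to small unary numbers, so the algorithm only has
to work on `List (List ℕ)` with unary symbols.
-/

set_option autoImplicit false

namespace Crest.Agent.R287

open Crest.Agent.PT Crest.Agent.QC Crest.Agent.R317 Crest.Enc

namespace Prs

variable {α : Type} [Enc α]

/-- the number at the head, in unary -/
def hn (x : Raw) : ℕ := un (sz x) (rdNat x)

/-- read a list of numbers -/
def rdL (x : Raw) : List Bin := mkL (hn x) (fun i => ⟨rdNat (skip^[i] (skip x))⟩)

/-- skip a list of numbers -/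
def skL (x : Raw) : Raw := skip^[hn x] (skip x)

/-- read a family -/
def rdF (x : Raw) : List (List Bin) := mkL (hn x) (fun k => rdL (skL^[k] (skip x)))

/-- write a list -/
def wrL (l : List Bin) : Raw :=
  Raw.app (natCodeR l.length) (Raw.concat l.length (fun i => (l.getD i ⟨0⟩).code))

@[fun_prop] theorem pt_hn {f : α → Raw} (hf : PT f) : PT (fun a => hn (f a)) := by
  unfold hn; fun_prop

@[fun_prop] theorem pt_skips {f : α → Raw} {k : α → ℕ} (hf : PT f) (hk : PT k) :
    PT (fun a => skip^[k a] (f a)) :=
  pt_iterShrink (pt_skip PT.id') length_skip hk hf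

theorem pt_rdL : PT rdL := by
  unfold rdL; fun_prop

theorem pt_skL : PT skL := by
  unfold skL; fun_prop

theorem len_skips (k : ℕ) (x : Raw) : (skip^[k] x).val.length ≤ x.val.length := by
  induction k with
  | zero => exact le_rfl
  | succ k ih => rw [Function.iterate_succ_apply']; exact (length_skip _).trans ih

theorem len_skL (x : Raw) : (skL x).val.length ≤ x.val.length :=
  (len_skips _ _).trans (length_skip _)

theorem pt_rdF : PT rdF :=
  pt_mkL (f := fun x k => rdL (skL^[k] (skip x))) (pt_hn PT.id')
    (pt_rdL.comp (pt_iterShrink pt_skL len_skL (by fun_prop) (by fun_prop)))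

theorem pt_wrL : PT wrL := by
  unfold wrL; fun_prop

theorem len_le_flat {ι : Type} (code : ι → List Bool) (h : ∀ i, 1 ≤ (code i).length) (l : List ι) :
    l.length ≤ (l.map code).flatten.length := by
  induction l with
  | nil => simp
  | cons x l ih =>
    have := h x
    simp only [List.map_cons, List.flatten_cons, List.length_append, List.length_cons]
    omega

theorem hn_code {ι : Type} (code : ι → List Bool) (h : ∀ i, 1 ≤ (code i).length) (l : List ι)
    (y : List Bool) : hn ⟨natCode l.length ++ ((l.map code).flatten ++ y)⟩ = l.length := by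
  have := len_le_flat code h l
  rw [hn, rdNat_code, un]
  refine min_eq_left ?_
  simp only [sz_raw, List.length_append]
  omega

theorem one_le_nat (k : ℕ) : 1 ≤ (natCode k).length := by
  rw [length_natCode]; omega

theorem rdL_code (l : List ℕ) (y : List Bool) : rdL ⟨listCode l ++ y⟩ = l.map Bin.mk := by
  rw [rdL, listCode, List.append_assoc, hn_code natCode one_le_nat, skip_code]
  apply List.ext_getElem
  · simp
  · intro i h1 h2
    have hi : i < l.length := by simpa using h2
    simp only [mkL, List.getElem_map, List.getElem_range]
    rw [iter_skip skip natCode skip_code l y i hi.le, List.drop_eq_getElem_cons hi, List.map_cons,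
      List.flatten_cons, List.append_assoc, rdNat_code]

theorem skL_code (l : List ℕ) (y : List Bool) : skL ⟨listCode l ++ y⟩ = ⟨y⟩ := by
  rw [skL, listCode, List.append_assoc, hn_code natCode one_le_nat, skip_code,
    iter_skip skip natCode skip_code l y _ le_rfl]
  simp

theorem one_le_list (l : List ℕ) : 1 ≤ (listCode l).length := by
  have := one_le_nat l.length
  rw [listCode, List.length_append]; omega

theorem rdF_code (S : List (List ℕ)) :
    rdF ⟨natCode S.length ++ (S.map listCode).flatten⟩ = S.map (List.map Bin.mk) := by
  rw [← List.append_nil (S.map listCode).flatten, rdF, hn_code listCode one_le_list, skip_code]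
  apply List.ext_getElem
  · simp
  · intro i h1 h2
    have hi : i < S.length := by simpa using h2
    simp only [mkL, List.getElem_map, List.getElem_range]
    rw [iter_skip skL listCode skL_code S [] i hi.le, List.drop_eq_getElem_cons hi, List.map_cons,
      List.flatten_cons, List.append_assoc, rdL_code]

theorem wrL_code (l : List Bin) : (wrL l).val = listCode (l.map Bin.val) := by
  rw [wrL, listCode]
  simp only [Raw.val_app, Raw.val_concat, natCodeR, List.length_map, Bin.code]
  congr 1
  conv_rhs => rw [← mkL_getD l ⟨0⟩]
  simp [mkL, List.flatMap_def, List.map_map, Function.comp_def]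

end Prs

open Prs

/-- The superstring property with approximation factor two. -/
def Good (S : List (List ℕ)) (T : List ℕ) : Prop :=
  (∀ s ∈ S, s <:+: T) ∧ ∀ T' : List ℕ, (∀ s ∈ S, s <:+: T') → T.length ≤ 2 * T'.length

/-- It suffices to give a polynomial-time algorithm for strings of unary symbols. -/
theorem s0432_of (g : List (List ℕ) → List ℕ) (hg : PT g) (H : ∀ S, Good S (g S)) :
    ∃ f : List Bool → List Bool, Crest.Complexity.PolyTime f ∧
      ∀ S : List (List ℕ), ∃ T : List ℕ,
        f (natCode S.length ++ (S.map listCode).flatten) = listCode T ∧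
        (∀ s ∈ S, s <:+: T) ∧
        ∀ T' : List ℕ, (∀ s ∈ S, s <:+: T') → T.length ≤ 2 * T'.length := by
  classical
  let G : List (List Bin) → List Bin := fun S =>
    (g (S.map (fun s => s.map (fun x => S.flatten.idxOf x)))).map (fun i => S.flatten.getD i ⟨0⟩)
  have hG : PT G := by
    have h1 : PT (fun S : List (List Bin) => S.map (fun s => s.map (fun x => S.flatten.idxOf x))) :=
      pt_map (f := fun (S : List (List Bin)) s => s.map (fun x => S.flatten.idxOf x)) PT.id'
        (pt_map (f := fun (q : List (List Bin) × List Bin) x => q.1.flatten.idxOf x) (by fun_prop)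
          (pt_idxOf (by fun_prop) (by fun_prop)))
    exact pt_map (f := fun (S : List (List Bin)) i => S.flatten.getD i ⟨0⟩) (hg.comp h1)
      (by fun_prop)
  refine ⟨_, PT.polyTime (pt_wrL.comp (hG.comp pt_rdF)), fun S => ?_⟩
  set A := (S.map (List.map Bin.mk)).flatten with hA
  set S' := S.map (fun s => s.map (fun x => A.idxOf ⟨x⟩)) with hS'
  refine ⟨(g S').map (fun i => (A.getD i ⟨0⟩).val), ?_, fun s hs => ?_, fun T' hT => ?_⟩
  · show (wrL (G (rdF _))).val = _
    rw [rdF_code, wrL_code]
    simp only [G, List.map_map, Function.comp_def, hS', hA]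
  · have h1 := ((H S').1 _ (List.mem_map_of_mem hs)).map (fun i => (A.getD i ⟨0⟩).val)
    rw [List.map_map, List.map_congr_left (g := id), List.map_id] at h1
    · exact h1
    · intro x hx
      have hm : (⟨x⟩ : Bin) ∈ A :=
        List.mem_flatten.2 ⟨_, List.mem_map_of_mem hs, List.mem_map_of_mem hx⟩
      have hi := List.idxOf_lt_length_of_mem hm
      simp only [Function.comp, id]
      rw [List.getD_eq_getElem _ _ hi, List.getElem_idxOf]
  · have h1 := (H S').2 (T'.map (fun x => A.idxOf ⟨x⟩)) (fun s' hs' => by
      obtain ⟨s, hs, rfl⟩ := List.mem_map.1 hs'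
      exact (hT s hs).map _)
    simpa using h1

theorem anchorW : True := by
  have := @hn.eq_1; have := @rdL.eq_1; have := @skL.eq_1; have := @rdF.eq_1; have := @wrL.eq_1
  have := @Good.eq_1
  trivial

end Crest.Agent.R287
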